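import Crest.Agent.N255.Ce.Ord
import Crest.Agent.N255.Mo.Col
import Crest.Agent.N255.Kc.Cov
import Crest.Agent.N255.Fp

/-!
# Row 255 (helper2): Morse data of the mirror model; the classifying space and finite presentation
-/

set_option autoImplicit false

noncomputable section

namespace Crest.Agent.N255.Ce

open Ra

variable {S K F Nd Ed : Type}

/-- the upper end of a cell of the rooted tree -/
def Rt.upper {src tgt : Ed → Nd} (R : Rt src tgt) : Nd ⊕ Ed → Nd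
  | .inl t => t
  | .inr e => R.up e

theorem Rt.up_ne {src tgt : Ed → Nd} (R : Rt src tgt) (e : Ed) : R.up e ≠ R.o := fun h => by
  have := R.lt e
  rw [h, R.ht_o] at this
  cases this

namespace Mir

variable [DecidableEq S] [Group F] [MulAction F Nd] [MulAction F Ed]
  {M : Mir S K F Nd Ed} {x y z : Nd ⊕ Ed}

theorem tle_ed (R : Rt M.src M.tgt) {e : Ed} :
    M.tle x (.inr e) ↔ x = .inr e ∨ x = .inl (R.up e) ∨ x = .inl (R.dn e) := by
  rw [tle, Bool.exists_bool]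
  rcases R.ud e with h | h <;> simp [nd, h.1, h.2, or_comm]

theorem upper_mono (R : Rt M.src M.tgt) (h : M.tle x y) :
    R.upper x = R.upper y ∨ R.ht (R.upper x) < R.ht (R.upper y) := by
  rcases y with t | e
  · exact Or.inl (tle_inl.1 h ▸ rfl)
  · rcases (tle_ed R).1 h with rfl | rfl | rfl
    exacts [Or.inl rfl, Or.inl rfl, Or.inr (R.lt e)]

theorem tree_step (R : Rt M.src M.tgt) (t : Nd) : ∃ (d : Nd ⊕ Ed) (b : Nd), R.upper d = t ∧
    (∀ c, R.upper c = t → M.tle c d) ∧ M.tle (.inl b) d ∧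
    (∀ c, M.tle c d → c ≠ .inl b → R.upper c = t ∧ ∀ x, M.tle c x → M.tle (.inl b) x → M.tle d x) ∧
    (b = t → t = R.o) ∧
    ∀ s, (∀ e, s ∈ M.sp (R.up e) → s ∈ M.sp (R.dn e)) → s ∈ M.sp t → s ∈ M.sup d := by
  by_cases h : t = R.o
  · refine ⟨.inl t, t, rfl, ?_, tle_rfl, fun c a b => absurd (tle_inl.1 a) b, fun _ => h,
      fun s _ a => a⟩
    rintro (c | c) e
    · exact Or.inl (congrArg _ e)
    · exact absurd (e.trans h) (R.up_ne c)
  obtain ⟨e, rfl, he⟩ := R.par t h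
  refine ⟨.inr e, R.dn e, rfl, ?_, (tle_ed R).2 (Or.inr (Or.inr rfl)), fun c a b => ?_,
    fun a => absurd (congrArg R.ht a) (R.lt e).ne, fun s a b => ?_⟩
  · rintro (c | c) a
    · exact (tle_ed R).2 (Or.inr (Or.inl (congrArg _ a)))
    · exact Or.inl (congrArg _ (he c a))
  · rcases (tle_ed R).1 a with rfl | rfl | rfl
    · exact ⟨rfl, fun x a _ => a⟩
    · refine ⟨rfl, ?_⟩
      have l := R.lt e
      rintro (x | x) a1 a2
      · have := Sum.inl_injective ((tle_inl.1 a1).trans (tle_inl.1 a2).symm)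
        rw [this] at l
        exact absurd l (lt_irrefl _)
      · have l' := R.lt x
        rw [tle_ed R] at a1 a2
        simp only [reduceCtorEq, false_or, Sum.inl.injEq] at a1 a2
        rcases a1 with a1 | a1
        · exact Or.inl (congrArg _ (he x a1.symm).symm)
        · rcases a2 with a2 | a2 <;> rw [a1, a2] at l <;> omega
    · exact absurd rfl b
  · have := a e b
    rcases R.ud e with h | h <;> rw [h.1] at b <;> rw [h.2] at this <;>
      exact Finset.mem_inter.2 ⟨‹_›, ‹_›⟩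

variable (M)

/-- the rooting that is used over the vertex `u` -/
def rt (u : W M.Γ) : Rt M.src M.tgt := (M.root (InF u) (InF_clique u)).choose

theorem rt_sp {u : W M.Γ} {s : S} (h : s ∈ In u) : s ∈ M.sp (M.rt u).o ∧
    ∀ e, s ∈ M.sp ((M.rt u).up e) → s ∈ M.sp ((M.rt u).dn e) :=
  (M.root (InF u) (InF_clique u)).choose_spec s (mem_InF.2 h)

/-- the Morse function on vertices -/
def hv (p : W M.Γ × Nd) : ℕ ×ₗ ℕ := toLex (len p.1, (M.rt p.1).ht p.2)

variable [LinearOrder K]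

/-- the top vertex of a cell -/
def tv (a : M.Cell) : W M.Γ × Nd := (top a.w a.τ, (M.rt (top a.w a.τ)).upper a.c)

/-- vertices as cells -/
def vx (u : W M.Γ) (t : Nd) : M.Cell := ⟨u, ∅, .inl t, by simp, by simp, by simp⟩

variable {M} {a b : M.Cell} {u : W M.Γ} {t : Nd}

theorem tv_vx (u : W M.Γ) (t : Nd) : M.tv (M.vx u t) = (u, t) :=
  Prod.ext (top_eq_self (by simp [vx])) rfl

theorem tv_eq : M.tv a = (u, t) ↔ Cell.Has u a ∧ (∀ s ∈ a.τ, s ∈ In u) ∧ (M.rt u).upper a.c = t := by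
  refine ⟨fun h => ?_, fun h => ?_⟩
  · obtain ⟨rfl, rfl⟩ := Prod.mk.inj h
    exact ⟨a.has_top, fun _ hs => mem_In_top a.cl hs, rfl⟩
  · rw [tv, ← eq_top a.cl h.1 h.2.1, h.2.2]

theorem tv_mono (h : a ≤ b) : M.tv a = M.tv b ∨ M.hv (M.tv a) < M.hv (M.tv b) := by
  have h1 : top b.w b.τ = top (top a.w a.τ) b.τ := (top_congr b.cl (a.has_top.mono h)).symm
  have h2 := len_top b.cl (top a.w a.τ)
  rw [hv, hv, Prod.Lex.toLex_lt_toLex]
  rcases (b.τ \ InF (top a.w a.τ)).eq_empty_or_nonempty with e | e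
  · have h3 : top b.w b.τ = top a.w a.τ := by
      rw [h1, top_eq_self fun s hs => mem_InF.1 (Finset.sdiff_eq_empty_iff_subset.1 e hs)]
    simp only [tv, h3]
    exact (upper_mono _ h.2.1).imp (fun e => by rw [e]) fun l => Or.inr ⟨trivial, l⟩
  · have := e.card_pos
    exact Or.inr (Or.inl (by simp only [tv, h1]; omega))

theorem tv_base (h : M.tv a = (1, (M.rt 1).o)) : a = M.vx 1 (M.rt 1).o := by
  obtain ⟨h1, h2, h3⟩ := tv_eq.1 h
  have h4 : a.τ = ∅ := Finset.eq_empty_of_forall_notMem fun s hs => by simpa using h2 s hs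
  have h5 : a.c = .inl (M.rt 1).o := by
    revert h3
    rcases a.c with c | c
    · exact congrArg _
    · exact fun e => absurd e ((M.rt 1).up_ne c)
  exact h1.ext (Cell.has_self (M.vx 1 (M.rt 1).o)) h4 h5

theorem tv_step (u : W M.Γ) (t : Nd) (h0 : (u, t) ≠ (1, (M.rt 1).o)) : ∃ D b : M.Cell,
    M.tv D = (u, t) ∧ (∀ c, M.tv c = (u, t) → c ≤ D) ∧ b ≤ D ∧ M.tv b ≠ (u, t) ∧
    ∀ c ≤ D, M.tv c ≠ (u, t) → ∃ j, IsLUB {c, b} j ∧ M.tv j ≠ (u, t) := by
  obtain ⟨d, tb, t1, t2, t3, t4, t5, t6⟩ := tree_step (M.rt u) t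
  set J := InF u ∩ M.sp t with hJ
  have cJ : M.Γ.IsClique (J : Set S) := (InF_clique u).subset (by simp [hJ])
  have jI : ∀ s ∈ J, s ∈ In u := fun s hs => mem_InF.1 (Finset.mem_inter.1 hs).1
  have sJ : J ⊆ M.sup d := fun s hs => t6 s (M.rt_sp (jI s hs)).2 (Finset.mem_inter.1 hs).2
  have hD := Cell.has_mk' u J d cJ sJ
  have hb : u * pr M.Γ J * pr M.Γ J = u := by rw [mul_assoc, pr_mul_self cJ, mul_one]
  have hbD : Cell.Has (u * pr M.Γ J) (M.mk' u J d cJ sJ) :=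
    hD.mul (pr_mem_WT subset_rfl)
  refine ⟨M.mk' u J d cJ sJ, M.vx (u * pr M.Γ J) tb, tv_eq.2 ⟨hD, jI, t1⟩, fun c hc => ?_,
    ⟨Finset.empty_subset _, t3, hbD⟩, fun e => ?_, fun c hc hn => ?_⟩
  · obtain ⟨h1, h2, h3⟩ := tv_eq.1 hc
    refine Cell.le_of_has h1 hD (fun s hs => Finset.mem_inter.2 ⟨mem_InF.2 (h2 s hs), ?_⟩) (t2 _ h3)
    have := c.sub hs
    revert this h3
    rcases c.c with x | x
    · rintro rfl; exact id
    · rintro rfl this
      rcases (M.rt u).ud x with h | h <;> simp only [Rt.upper, h.1]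
      exacts [(Finset.mem_inter.1 this).1, (Finset.mem_inter.1 this).2]
  · rw [tv_vx, Prod.mk.injEq, mul_eq_left] at e
    have h1 : J = ∅ := pr_inj cJ (by simp) (e.1.trans pr_empty.symm)
    have h2 := t5 e.2
    have h3 : u = 1 := In_eq_empty.1 (Set.eq_empty_of_forall_notMem fun s hs => by
      have : s ∈ J := Finset.mem_inter.2 ⟨mem_InF.2 hs, h2 ▸ (M.rt_sp hs).1⟩
      simp [h1] at this)
    exact h0 (by rw [h2, h3])
  · obtain ⟨σ, s1, s2⟩ := (mem_WT cJ).1 (hbD.rel hc.2.2)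
    have uJ : c.τ ∪ σ ⊆ J := Finset.union_subset hc.1 s1
    have cU : M.Γ.IsClique (↑(c.τ ∪ σ) : Set S) := cJ.subset (Finset.coe_subset.2 uJ)
    obtain ⟨jc, j1, j2, j3, j4, j5⟩ : ∃ jc, M.tle jc d ∧ M.tle c.c jc ∧ M.tle (.inl tb) jc ∧
        (∀ x, M.tle c.c x → M.tle (.inl tb) x → M.tle jc x) ∧
        ((M.rt u).upper jc = t → (M.rt u).upper c.c = t) := by
      by_cases e : c.c = .inl tb
      · exact ⟨c.c, hc.2.1, tle_rfl, Or.inl e.symm, fun x a _ => a, id⟩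
      · exact ⟨d, tle_rfl, hc.2.1, t3, (t4 _ hc.2.1 e).2, fun _ => (t4 _ hc.2.1 e).1⟩
    have hj := Cell.has_mk' (u * pr M.Γ J) (c.τ ∪ σ) jc cU (uJ.trans (sJ.trans j1.sup))
    refine ⟨M.mk' (u * pr M.Γ J) (c.τ ∪ σ) jc cU (uJ.trans (sJ.trans j1.sup)), ⟨?_, ?_⟩,
      fun e => hn ?_⟩
    · rintro _ (rfl | rfl)
      · exact ⟨Finset.subset_union_left, j2, hj.of_rel (s2 ▸ pr_mem_WT (by simp [mk']))⟩
      · exact ⟨Finset.empty_subset _, j3, hj⟩
    · intro x hx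
      have x1 : c ≤ x := hx (by simp)
      have x2 : M.vx (u * pr M.Γ J) tb ≤ x := hx (by simp)
      obtain ⟨σ', a1, a2⟩ := (mem_WT x.cl).1 (x2.2.2.rel x1.2.2)
      have : σ = σ' := pr_inj (cJ.subset s1) (x.cl.subset a1) (s2.symm.trans a2)
      exact Cell.le_of_has hj x2.2.2 (Finset.union_subset x1.1 (this ▸ a1)) (j4 _ x1.2.1 x2.2.1)
    · obtain ⟨h1, -, h3⟩ := tv_eq.1 e
      obtain ⟨σ', a1, a2⟩ := (mem_WT cU).1 (hj.rel h1)
      have a3 : J = σ' := pr_inj cJ (cU.subset a1) (by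
        rw [← a2, mul_inv_rev, inv_mul_cancel_right, pr_inv cJ])
      refine tv_eq.2 ⟨?_, fun s hs => jI s (hc.1 hs), j5 h3⟩
      have a4 : c.w⁻¹ * u = pr M.Γ (symmDiff σ J) := by
        rw [← pr_mul_pr cJ s1 subset_rfl, ← pr_inv (cJ.subset s1), ← s2, mul_inv_rev, inv_inv,
          mul_assoc, hb]
      rw [Cell.Has, a4]
      refine pr_mem_WT fun s hs => ?_
      rcases Finset.mem_symmDiff.1 hs with h | h
      · exact absurd (s1 h.1) h.2
      · exact (Finset.mem_union.1 (a1 (a3 ▸ h.1))).resolve_right h.2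

theorem morse [Finite K] : Mo.Morse M.tv M.hv (M.vx 1 (M.rt 1).o) where
  mono _ _ := tv_mono
  low := Cell.low
  up := M.pg.up
  min _ h := (Cell.eq_or_dim_lt h).resolve_right (Nat.not_lt_zero _)
  base _ h := tv_base (h.trans (tv_vx _ _))
  step c h := by
    obtain ⟨D, b, h1, h2, h3⟩ := tv_step (M.tv c).1 (M.tv c).2 fun e => h (tv_base e)
    exact ⟨D, b, h1, h2, h3⟩

theorem kCl [Finite K] : Kc.KCl M.G :=
  haveI := (morse (M := M)).sc
  M.pg.kCl fun n _ μ => morse.wc n μ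

theorem fp [Finite K] : Group.IsFinitelyPresented M.G := by
  have h := morse (M := M)
  refine Fp.Mw.fp (top := M.tv) (ht := M.hv) (o := M.vx 1 (M.rt 1).o) ⟨h.mono, h.base, ?_⟩
    (fun g _ _ l => Kc.smul_mono g l) (fun _ _ e => M.pg.free e) M.pg.fin Cell.low
  rintro _ ⟨c, rfl⟩ hc
  obtain ⟨D, b, h1, h2, h3, h4, h5⟩ := h.step c fun e => hc (e ▸ rfl)
  refine ⟨D, b, h1, h2, h3, h4, fun x a n => ?_⟩
  obtain ⟨j, j1, j2⟩ := h5 x a n
  exact ⟨j, j1.1 (by simp), j1.1 (by simp), j1.2 (by rintro _ (rfl | rfl) <;> assumption), j2⟩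

end Mir

end Crest.Agent.N255.Ce

end
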