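import Crest.Agent.N255.Ce.Fr
import Crest.Agent.N255.Ce.Mor

/-!
# Row 255 (helper10): the group of a mirror model with the chamber lemma is a `PD4` group of finite type
-/

set_option autoImplicit false

namespace Crest.Agent.N255.Ce

/-- the last clause of the statement -/
def NoMf (G : Type) [Group G] : Prop :=
  ¬ ∃ (M : Type) (_ : TopologicalSpace M) (_ : ChartedSpace (EuclideanSpace ℝ (Fin 4)) M),
    T2Space M ∧ SecondCountableTopology M ∧ CompactSpace M ∧ ConnectedSpace M ∧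
    (∀ n : ℕ, 2 ≤ n → ∀ x : M, Subsingleton (HomotopyGroup (Fin n) M x)) ∧
    ∃ x : M, Nonempty (FundamentalGroup M x ≃* G)

/-- the statement for one group -/
def Stm (G : Type) [Group G] : Prop := Group.IsFinitelyPresented G ∧ Kc.KCl G ∧ Gc.PD4 G ∧ NoMf G

variable {S K F Nd Ed : Type} [DecidableEq S] [Group F] [MulAction F Nd] [MulAction F Ed]
  {M : Mir S K F Nd Ed} [LinearOrder K] [Finite K]

theorem Mir.Cham.stm (H : M.Cham) (h : NoMf M.G) : Stm M.G := ⟨M.fp, M.kCl, H.pd4, h⟩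

/-- the statement of the row from the chamber lemma and the non manifold clause -/
theorem Mir.Cham.s0393 (H : M.Cham) (h : NoMf M.G) :
    ∃ (G : Type) (_ : Group G), Group.IsFinitelyPresented G ∧
      (∃ (N : ℕ) (K : Geometry.SimplicialComplex ℝ (EuclideanSpace ℝ (Fin N))),
        K.faces.Finite ∧ (∀ s ∈ K.faces, s.card ≤ 5) ∧ PathConnectedSpace K.space ∧
        (∀ n : ℕ, 2 ≤ n → ∀ x : K.space, Subsingleton (HomotopyGroup (Fin n) K.space x)) ∧
        ∃ x : K.space, Nonempty (FundamentalGroup K.space x ≃* G)) ∧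
      (∀ i : ℕ, i ≠ 4 → CategoryTheory.Limits.IsZero (groupCohomology (Rep.leftRegular ℤ G) i)) ∧
      Nonempty (groupCohomology (Rep.leftRegular ℤ G) 4 ≃+ ℤ) ∧
      (∀ g : G, (groupCohomology.functor ℤ G 4).map
          ((Rep.leftRegular ℤ G).leftRegularHom (MonoidAlgebra.single g (1 : ℤ))) =
        CategoryTheory.CategoryStruct.id (groupCohomology (Rep.leftRegular ℤ G) 4)) ∧
      ¬ ∃ (M : Type) (_ : TopologicalSpace M) (_ : ChartedSpace (EuclideanSpace ℝ (Fin 4)) M),
        T2Space M ∧ SecondCountableTopology M ∧ CompactSpace M ∧ ConnectedSpace M ∧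
        (∀ n : ℕ, 2 ≤ n → ∀ x : M, Subsingleton (HomotopyGroup (Fin n) M x)) ∧
        ∃ x : M, Nonempty (FundamentalGroup M x ≃* G) :=
  ⟨M.G, inferInstance, M.fp, M.kCl, H.pd4.1, H.pd4.2.1, H.pd4.2.2, h⟩

end Crest.Agent.N255.Ce
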