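import Crest.Agent.N255.Ce.Defs
import Crest.Agent.N255.Kc.Defs

/-!
# Row 255 (helper10): corners, the face order, the regular cocompact action
-/

set_option autoImplicit false

noncomputable section

namespace Crest.Agent.N255.Ce.Mir

open Ra Finsupp

variable {S K F Nd Ed : Type} [DecidableEq S] [Group F] [MulAction F Nd] [MulAction F Ed]
  {M : Mir S K F Nd Ed} {τ σ : Finset S} {s : S} {u v w : W M.Γ}

/-! ### the tree -/

@[simp] theorem nd_inl (b : Bool) (t : Nd) : M.nd b (.inl t) = t := rfl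
@[simp] theorem nd_true (e : Ed) : M.nd true (.inr e) = M.tgt e := rfl
@[simp] theorem nd_false (e : Ed) : M.nd false (.inr e) = M.src e := rfl
@[simp] theorem sup_inl (t : Nd) : M.sup (.inl t) = M.sp t := rfl
@[simp] theorem sup_inr (e : Ed) : M.sup (.inr e) = M.sp (M.src e) ∩ M.sp (M.tgt e) := rfl

theorem tle_rfl {a : Nd ⊕ Ed} : M.tle a a := .inl rfl

theorem tle_nd (b : Bool) (c : Nd ⊕ Ed) : M.tle (.inl (M.nd b c)) c := .inr ⟨b, rfl⟩

theorem tle.trans {a b c : Nd ⊕ Ed} (h : M.tle a b) (k : M.tle b c) : M.tle a c := by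
  rcases h with rfl | ⟨x, rfl⟩
  · exact k
  rcases k with rfl | ⟨y, rfl⟩
  · exact tle_nd _ _
  · exact tle_nd y c

theorem tle.antisymm {a b : Nd ⊕ Ed} (h : M.tle a b) (k : M.tle b a) : a = b := by
  rcases h with rfl | ⟨x, rfl⟩
  · rfl
  rcases k with k | ⟨y, k⟩
  · exact k.symm
  · exact k.symm

theorem tle.sup {a c : Nd ⊕ Ed} (h : M.tle a c) : M.sup c ⊆ M.sup a := by
  rcases h with rfl | ⟨x, rfl⟩
  · exact subset_rfl
  · exact M.sup_nd x c

theorem tle.smul {a c : Nd ⊕ Ed} (f : F) (h : M.tle a c) : M.tle (f • a) (f • c) := by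
  rcases h with rfl | ⟨x, rfl⟩
  · exact tle_rfl
  · exact .inr ⟨x, by rw [nd_smul]; rfl⟩

theorem tle.eq_or_lt {a c : Nd ⊕ Ed} (h : M.tle a c) : a = c ∨ tdim a < tdim c := by
  rcases h with rfl | ⟨x, rfl⟩
  · exact .inl rfl
  rcases c with t | e
  · exact .inl rfl
  · exact .inr Nat.zero_lt_one

theorem tle.tdim_le {a c : Nd ⊕ Ed} (h : M.tle a c) : tdim a ≤ tdim c :=
  h.eq_or_lt.elim (fun e => e ▸ le_rfl) le_of_lt

theorem tle.nd {a c : Nd ⊕ Ed} (h : M.tle a c) (b : Bool) : ∃ b', M.nd b a = M.nd b' c := by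
  rcases h with rfl | ⟨x, rfl⟩
  · exact ⟨b, rfl⟩
  · exact ⟨x, rfl⟩

theorem tle_inl {a : Nd ⊕ Ed} {t : Nd} : M.tle a (.inl t) ↔ a = .inl t :=
  ⟨fun h => h.elim id fun ⟨_, e⟩ => e, fun h => .inl h⟩

theorem tle_inr {a : Nd ⊕ Ed} {e : Ed} :
    M.tle a (.inr e) ↔ a = .inr e ∨ a = .inl (M.src e) ∨ a = .inl (M.tgt e) := by
  simp [tle]

theorem inr_tle {e : Ed} {c : Nd ⊕ Ed} : M.tle (.inr e) c ↔ c = .inr e := by simp [tle, eq_comm]

theorem src_ne_tgt (e : Ed) : M.src e ≠ M.tgt e := fun h => M.ty_src e (h ▸ M.ty_tgt e)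

theorem nd_eq_of_ty {c : Nd ⊕ Ed} {b b' : Bool} (h : M.ty (M.nd b c) ↔ M.ty (M.nd b' c)) :
    M.nd b c = M.nd b' c := by
  rcases c with t | e
  · rfl
  have h1 := M.ty_src e
  have h2 := M.ty_tgt e
  cases b <;> cases b' <;> simp_all

theorem tdim_smul (f : F) (c : Nd ⊕ Ed) : tdim (f • c) = tdim c := by rcases c with t | e <;> rfl

theorem col_inj (h : M.Γ.IsClique (τ : Set S)) {s t : S} (hs : s ∈ τ) (ht : t ∈ τ)
    (e : M.col s = M.col t) : s = t := by_contra fun n => M.col_ne _ _ (h hs ht n) e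

variable [LinearOrder K]

/-! ### corners -/

theorem ch_pr (h : M.Γ.IsClique (τ : Set S)) (hσ : σ ⊆ τ) (hs : s ∈ τ) :
    M.ch (pr M.Γ σ) (M.col s) = if s ∈ σ then 1 else 0 := by
  induction σ using Finset.induction_on with
  | empty => simp
  | insert t σ ht ih =>
    have ht' := hσ (Finset.mem_insert_self _ _)
    rw [pr_insert (h.subset (Finset.coe_subset.2 hσ)) ht, ch_mul,
      ih ((Finset.subset_insert _ _).trans hσ), ch_gen]
    by_cases e : s = t
    · subst e; simp [ht]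
    · rw [if_neg (fun x => e (col_inj h hs ht' x)), add_zero]; simp [e]

theorem eq_one_of_ch (h : M.Γ.IsClique (τ : Set S)) (hv : v ∈ WT M.Γ (τ : Set S))
    (hc : ∀ s ∈ τ, M.ch v (M.col s) = 0) : v = 1 := by
  obtain ⟨σ, hσ, rfl⟩ := (mem_WT h).1 hv
  rw [Finset.eq_empty_of_forall_notMem (s := σ) fun s hs => by
    simpa [ch_pr h hσ (hσ hs), hs] using hc s (hσ hs), pr_empty]

theorem cor_uniq (h : M.Γ.IsClique (τ : Set S)) (hv : w⁻¹ * v ∈ WT M.Γ (τ : Set S))
    (h1 : ∀ s ∈ τ, M.ch w (M.col s) = 0) (h2 : ∀ s ∈ τ, M.ch v (M.col s) = 0) : w = v :=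
  inv_mul_eq_one.1 (eq_one_of_ch h hv fun s hs => by rw [ch_mul, ch_inv, h1 s hs, h2 s hs, add_zero])

variable (M) in
/-- the canonical corner of `u W_τ` -/
def cn (u : W M.Γ) (τ : Finset S) : W M.Γ := u * pr M.Γ (τ.filter fun s => M.ch u (M.col s) ≠ 0)

theorem cn_mem (u : W M.Γ) (τ : Finset S) : u⁻¹ * M.cn u τ ∈ WT M.Γ (τ : Set S) := by
  rw [cn, inv_mul_cancel_left]; exact pr_mem_WT (Finset.coe_subset.2 (Finset.filter_subset _ _))

theorem cor_cn (h : M.Γ.IsClique (τ : Set S)) (u : W M.Γ) (s : S) (hs : s ∈ τ) :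
    M.ch (M.cn u τ) (M.col s) = 0 := by
  rw [cn, ch_mul, ch_pr h (Finset.filter_subset _ _) hs]
  generalize hx : M.ch u (M.col s) = x
  have : ∀ x : ZMod 2, x + (if x ≠ 0 then 1 else 0) = 0 := by decide
  simpa [hs, hx] using this x

variable (M) in
/-- the cell of type `(τ, c)` containing `u` -/
def mk' (u : W M.Γ) (τ : Finset S) (c : Nd ⊕ Ed) (cl : M.Γ.IsClique (τ : Set S)) (sub : τ ⊆ M.sup c) :
    M.Cell := ⟨M.cn u τ, τ, c, cl, sub, cor_cn cl u⟩

namespace Cell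

variable {a b c : M.Cell}

theorem has_self (a : M.Cell) : Has a.w a := by rw [Has, inv_mul_cancel]; exact one_mem _

theorem Has.mul (h : Has u a) (hv : v ∈ WT M.Γ (a.τ : Set S)) : Has (u * v) a := by
  rw [Has, ← mul_assoc]; exact mul_mem h hv

theorem Has.rel (h : Has u a) (k : Has v a) : u⁻¹ * v ∈ WT M.Γ (a.τ : Set S) := by
  simpa [mul_assoc] using mul_mem (inv_mem h) k

theorem Has.of_rel (h : Has u a) (k : u⁻¹ * v ∈ WT M.Γ (a.τ : Set S)) : Has v a := by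
  simpa using h.mul k

theorem has_mk' (u : W M.Γ) (τ : Finset S) (c : Nd ⊕ Ed) (cl : M.Γ.IsClique (τ : Set S))
    (sub : τ ⊆ M.sup c) : Has u (M.mk' u τ c cl sub) := by
  simpa [Has, mk'] using inv_mem (cn_mem (M := M) u τ)

theorem Has.w_eq (h : Has u a) : a.w = M.cn u a.τ :=
  cor_uniq a.cl (h.of_rel (cn_mem u a.τ)) a.cor (cor_cn a.cl u)

theorem Has.ext (h : Has u a) (k : Has u b) (e : a.τ = b.τ) (e' : a.c = b.c) : a = b :=
  Cell.ext (by rw [h.w_eq, k.w_eq, e]) e e'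

theorem Has.eq_mk' (h : Has u a) : a = M.mk' u a.τ a.c a.cl a.sub := h.ext (has_mk' _ _ _ _ _) rfl rfl

theorem has_bot (a : M.Cell) : Has (bot a.w a.τ) a := bot_mem _ _

theorem has_top (a : M.Cell) : Has (top a.w a.τ) a := top_mem _ _

theorem Has.bot_eq (h : Has u a) : bot u a.τ = bot a.w a.τ := bot_congr a.cl h

theorem Has.top_eq (h : Has u a) : top u a.τ = top a.w a.τ := top_congr a.cl h

theorem Le.has (k : Le a b) (h : Has u a) : Has u b :=
  k.2.2.of_rel (WT_mono (Finset.coe_subset.2 k.1) h)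

instance : PartialOrder M.Cell where
  le := Le
  le_refl a := ⟨subset_rfl, tle_rfl, has_self a⟩
  le_trans _ _ _ h k := ⟨h.1.trans k.1, h.2.1.trans k.2.1, k.has h.2.2⟩
  le_antisymm a _ h k := (has_self a).ext h.2.2 (h.1.antisymm k.1) (h.2.1.antisymm k.2.1)

theorem le_def : a ≤ b ↔ a.τ ⊆ b.τ ∧ M.tle a.c b.c ∧ Has a.w b := Iff.rfl

theorem Has.mono (h : Has u a) (k : a ≤ b) : Has u b := Le.has k h

theorem le_of_has (h : Has u a) (k : Has u b) (e : a.τ ⊆ b.τ) (e' : M.tle a.c b.c) : a ≤ b :=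
  ⟨e, e', k.of_rel (WT_mono (Finset.coe_subset.2 e) (h.rel (has_self a)))⟩

theorem lo_le (a : M.Cell) (s : S) : a.lo s ≤ a := ⟨Finset.erase_subset _ _, tle_rfl, has_self a⟩

theorem hi_w (hs : s ∈ a.τ) : (a.hi s).w = a.w * gen M.Γ s := if_pos hs

theorem hi_le (a : M.Cell) (s : S) : a.hi s ≤ a := by
  refine ⟨Finset.erase_subset _ _, tle_rfl, ?_⟩
  by_cases hs : s ∈ a.τ
  · rw [hi_w hs]; exact (has_self a).mul (gen_mem_WT hs)
  · rw [show (a.hi s).w = a.w from if_neg hs]; exact has_self a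

theorem en_le (a : M.Cell) (x : Bool) : a.en x ≤ a := ⟨subset_rfl, tle_nd _ _, has_self a⟩

theorem Has.smul (g : M.G) (h : Has u a) : Has (g.1.left * aut (M.ρ g.1.right) u) (g • a) := by
  have := map_mem_WT (M.ρ g.1.right).toHom h
  rw [Has, smul_w, smul_τ, Finset.coe_image, mul_inv_rev, mul_assoc, inv_mul_cancel_left, ← map_inv,
    ← map_mul]
  exact this

instance : CovariantClass M.G M.Cell (· • ·) (· ≤ ·) :=
  ⟨fun g _ _ h => ⟨Finset.image_subset_image h.1, h.2.1.smul _, h.2.2.smul g⟩⟩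

theorem dim_smul (g : M.G) (a : M.Cell) : (g • a).dim = a.dim := by
  rw [dim, dim, smul_τ, smul_c, tdim_smul, Finset.card_image_of_injective _ (M.ρ _).injective]

theorem dim_le (a : M.Cell) : a.dim ≤ 4 := by
  obtain ⟨w, τ, c, cl, sub, cor⟩ := a
  rcases c with t | e
  · exact M.dimN t τ cl sub
  · exact Nat.succ_le_succ (M.dimE e τ cl (sub.trans Finset.inter_subset_left)
      (sub.trans Finset.inter_subset_right))

theorem eq_or_dim_lt (h : a ≤ b) : a = b ∨ a.dim < b.dim := by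
  have h1 := Finset.card_le_card h.1
  have h2 := h.2.1.tdim_le
  rw [or_iff_not_imp_right, dim, dim]
  intro n
  refine (has_self a).ext h.2.2 (Finset.eq_of_subset_of_card_le h.1 (by omega))
    (h.2.1.eq_or_lt.resolve_right (by omega))

theorem reg (g : M.G) (a c : M.Cell) (h : a ≤ c) (k : g • a ≤ c) : g = 1 := by
  obtain ⟨b1, e1⟩ := h.2.1.nd true
  obtain ⟨b2, e2⟩ := k.2.1.nd true
  rw [smul_c, nd_smul] at e2
  have e : g.1.right = 1 := M.free _ (M.nd true a.c) (by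
    rw [e2, e1]; exact nd_eq_of_ty (by rw [← e2, ← e1, M.ty_smul]))
  have r := h.2.2.rel k.2.2
  rw [smul_w, e, ← autHom_apply, map_one, MulAut.one_apply] at r
  have := eq_one_of_ch c.cl r fun s _ => by
    rw [ch_mul, ch_mul, ch_inv, g.2, zero_add, CharTwo.add_self_eq_zero]
  exact Subtype.ext (SemidirectProduct.ext (by simpa using inv_mul_eq_one.1 this) e)

theorem free (g : M.G) (a : M.Cell) (h : g • a = a) : g = 1 := reg g a a le_rfl h.le

theorem finite_of {A : Set (W M.Γ)} {B : Set (Nd ⊕ Ed)} (hA : A.Finite) (hB : B.Finite) :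
    {a : M.Cell | a.w ∈ A ∧ a.c ∈ B}.Finite := by
  have h : (⋃ c ∈ B, ((M.sup c).powerset : Set (Finset S))).Finite :=
    hB.biUnion fun _ _ => Finset.finite_toSet _
  refine (((hA.prod (h.prod hB)).preimage (f := fun a : M.Cell => (a.w, a.τ, a.c))
    fun a _ b _ e => ?_)).subset fun a ha => ⟨ha.1, ?_, ha.2⟩
  · simp only [Prod.mk.injEq] at e
    exact Cell.ext e.1 e.2.1 e.2.2
  · exact Set.mem_biUnion ha.2 (by simpa using a.sub)

theorem low (c : M.Cell) : (Set.Iic c).Finite := by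
  refine (finite_of (A := (fun σ => c.w * pr M.Γ σ) '' (c.τ.powerset : Set (Finset S)))
    (B := {c.c, .inl (M.nd true c.c), .inl (M.nd false c.c)}) ((Finset.finite_toSet _).image _)
    (Set.toFinite _)).subset fun a ha => ⟨?_, ?_⟩
  · obtain ⟨σ, h, e⟩ := (mem_WT c.cl).1 ha.2.2
    exact ⟨σ, by simpa using h, by simp [← e]⟩
  · rcases ha.2.1 with e | ⟨b, e⟩
    · simp [e]
    · cases b <;> simp [e]

theorem fin [Finite K] : ∃ s : Set M.Cell, s.Finite ∧ ∀ a : M.Cell, ∃ g : M.G, g • a ∈ s := by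
  obtain ⟨A, hA, kA⟩ := M.finN
  obtain ⟨B, hB, kB⟩ := M.finE
  let r : (K → ZMod 2) → W M.Γ := Function.invFun M.ch
  refine ⟨_, finite_of (A := Set.range r) (B := Sum.inl '' A ∪ Sum.inr '' B) (Set.finite_range r)
    ((hA.image _).union (hB.image _)), fun a => ?_⟩
  obtain ⟨f, hf⟩ : ∃ f : F, f • a.c ∈ Sum.inl '' A ∪ Sum.inr '' B := by
    rcases a.c with t | e
    · obtain ⟨f, hf⟩ := kA t
      exact ⟨f, .inl ⟨_, hf, rfl⟩⟩
    · obtain ⟨f, hf⟩ := kB e
      exact ⟨f, .inr ⟨_, hf, rfl⟩⟩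
  have e : M.ch (r (M.ch a.w)) = M.ch a.w := Function.invFun_eq ⟨_, rfl⟩
  refine ⟨⟨⟨r (M.ch a.w) * (aut (M.ρ f) a.w)⁻¹, f⟩, fun k => ?_⟩, ⟨M.ch a.w, ?_⟩, hf⟩
  · show M.ch (_ * _) k = 0
    rw [ch_mul, e, ch_inv, ch_aut, CharTwo.add_self_eq_zero]
  · rw [smul_w]; simp

end Cell

variable (M) in
/-- the action on the cells is regular and cocompact -/
theorem pg [Finite K] : Kc.PG M.G M.Cell where
  reg := Cell.reg
  fin := by
    obtain ⟨s, hs, h⟩ := Cell.fin (M := M)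
    have := hs.to_subtype
    refine Finite.of_surjective (fun x : s => (Quotient.mk _ x.1 : MulAction.orbitRel.Quotient M.G M.Cell))
      fun q => ?_
    obtain ⟨a, rfl⟩ := Quotient.exists_rep q
    obtain ⟨g, hg⟩ := h a
    exact ⟨⟨_, hg⟩, Quotient.sound ⟨g, rfl⟩⟩
  low := Cell.low
  dim s hs := by
    refine (Finset.card_le_card_of_injOn (t := Finset.range 5) Cell.dim (fun a _ => ?_)
      fun a ha b hb e => ?_).trans (by simp)
    · exact Finset.mem_coe.2 (Finset.mem_range.2 (Nat.lt_succ_of_le a.dim_le))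
    · rcases hs.total ha hb with h | h
      · exact (Cell.eq_or_dim_lt h).resolve_right e.not_lt
      · exact ((Cell.eq_or_dim_lt h).resolve_right e.not_gt).symm

end Crest.Agent.N255.Ce.Mir
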