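import Crest.Agent.N255.Ce.Ex0
import Crest.Agent.N255.Ce.Ord

/-!
# Row 255 (helper16): the cellular chain complex of the mirror model is a resolution
-/

set_option autoImplicit false

noncomputable section

namespace Crest.Agent.N255.Ce.Mir

open Ra Finsupp Fl

variable {S K F Nd Ed : Type} [DecidableEq S] [Group F] [MulAction F Nd] [MulAction F Ed]
  [LinearOrder K] {M : Mir S K F Nd Ed}

namespace Ex

variable (M) in
/-- the rooting attached to `u` -/
def rt (u : W M.Γ) : Rt M.src M.tgt := (M.root _ (InF_clique u)).choose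

omit [LinearOrder K] in
theorem rt_spec (u : W M.Γ) {s : S} (hs : s ∈ In u) : s ∈ M.sp (rt M u).o ∧
    ∀ e, s ∈ M.sp ((rt M u).up e) → s ∈ M.sp ((rt M u).dn e) :=
  (M.root _ (InF_clique u)).choose_spec s (mem_InF.2 hs)

omit [LinearOrder K] in
theorem up_ne (R : Rt M.src M.tgt) (e : Ed) : R.up e ≠ R.o := fun h => by
  have := R.lt e
  rw [h, R.ht_o] at this
  exact Nat.not_lt_zero _ this

omit [LinearOrder K] in
theorem up_inj (R : Rt M.src M.tgt) {e e' : Ed} (h : R.up e = R.up e') : e = e' :=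
  (R.par _ (up_ne R e')).unique h rfl

omit [LinearOrder K] in
theorem nd_cases (R : Rt M.src M.tgt) (e : Ed) (b : Bool) :
    M.nd b (.inr e) = R.up e ∨ M.nd b (.inr e) = R.dn e := by
  rcases R.ud e with h | h <;> cases b <;> simp [nd, h.1, h.2]

omit [LinearOrder K] in
theorem exists_nd (R : Rt M.src M.tgt) (e : Ed) : ∃ b, M.nd b (.inr e) = R.up e :=
  (R.ud e).elim (fun h => ⟨false, h.1.symm⟩) fun h => ⟨true, h.1.symm⟩

/-- the top vertex of the cube -/
def tp (a : M.Cell) : W M.Γ := top a.w a.τ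

/-- the level -/
def lv (a : M.Cell) : W M.Γ × Nd := (tp a, a.c.elim id (rt M (tp a)).up)

variable (M) in
/-- the height -/
def ht (p : W M.Γ × Nd) : ℕ ×ₗ ℕ := toLex (len p.1, (rt M p.1).ht p.2)

theorem mem_tp {a : M.Cell} {s : S} (hs : s ∈ a.τ) : s ∈ In (tp a) := mem_In_top a.cl hs

theorem tp_eq {a : M.Cell} {u : W M.Γ} (h : Cell.Has u a) (k : ∀ s ∈ a.τ, s ∈ In u) : tp a = u :=
  (eq_top a.cl h k).symm

theorem ext_tp {a b : M.Cell} (h : tp a = tp b) (e : a.τ = b.τ) (e' : a.c = b.c) : a = b :=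
  Cell.Has.ext (u := tp a) a.has_top (h ▸ b.has_top) e e'

theorem tp_face {a y : M.Cell} (h : y ≤ a) : tp y = tp a ∨ len (tp y) < len (tp a) := by
  have h1 : Cell.Has (tp y) a := y.has_top.mono h
  have h2 := len_top a.cl (tp y)
  rw [h1.top_eq] at h2
  rcases (a.τ \ InF (tp y)).eq_empty_or_nonempty with e | e
  · exact Or.inl (tp_eq h1 fun s hs => mem_InF.1 (Finset.sdiff_eq_empty_iff_subset.1 e hs)).symm
  · exact Or.inr (h2 ▸ Nat.lt_add_of_pos_right e.card_pos)

theorem has_face {a : M.Cell} {u : W M.Γ} (h : Cell.Has u a) {s : S} (hs : s ∈ a.τ) :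
    Cell.Has u (a.lo s) ∨ Cell.Has u (a.hi s) := by
  obtain ⟨σ, hσ, e⟩ := (mem_WT a.cl).1 h
  by_cases k : s ∈ σ
  · refine Or.inr ?_
    have hc := a.cl.subset (Finset.coe_subset.2 hσ)
    rw [Cell.Has, Cell.hi_w hs, mul_inv_rev, gen_inv, mul_assoc, e,
      (comm_pr fun t ht n => hc k ht n).eq, ← pr_erase hc k]
    exact pr_mem_WT (Finset.coe_subset.2 (Finset.erase_subset_erase s hσ))
  · refine Or.inl ?_
    change a.w⁻¹ * u ∈ _
    rw [e]
    exact pr_mem_WT (Finset.coe_subset.2 (Finset.subset_erase.2 ⟨hσ, k⟩))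

theorem low : Low (ht M) lv lv M.bdL := fun a y h => by
  rw [bdL_one] at h
  have cube : y ≤ a → y.c = a.c → lv y = lv a ∨ ht M (lv y) < ht M (lv a) := fun k e =>
    (tp_face k).imp (fun k => by rw [lv, lv, k, e]) fun k => Prod.Lex.toLex_lt_toLex.2 (Or.inl k)
  rcases Cell.bd_ne h with ⟨s, -, rfl | rfl⟩ | ⟨e, b, he, rfl⟩
  · exact cube (a.lo_le s) rfl
  · exact cube (a.hi_le s) rfl
  · have e1 : lv (a.en b) = (tp a, M.nd b (.inr e)) := by rw [← he]; rfl
    have e2 : lv a = (tp a, (rt M (tp a)).up e) := by rw [lv, he]; rfl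
    rw [e1, e2]
    exact (nd_cases (rt M (tp a)) e b).imp (fun k => by rw [k]) fun k =>
      Prod.Lex.toLex_lt_toLex.2 (Or.inr ⟨rfl, by rw [k]; exact (rt M (tp a)).lt e⟩)

theorem bd_cube {a x : M.Cell} {s : S} (hs : s ∈ a.τ) (hx : x = a.lo s ∨ x = a.hi s) :
    a.bd x * a.bd x = 1 := by
  classical
  have hτ : x.τ = a.τ.erase s := by rcases hx with rfl | rfl <;> rfl
  have h1 : a.tr x = 0 := by
    by_contra h
    obtain ⟨e, b, -, rfl⟩ := Cell.tr_ne h
    exact Finset.notMem_erase s a.τ (hτ ▸ hs)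
  have h2 : a.lo s ≠ a.hi s := fun e =>
    gen_ne_one s (left_eq_mul.1 ((congrArg Cell.w e).trans (Cell.hi_w hs)))
  have h3 : a.cu x = M.ε s a.τ * (single (a.lo s) (1 : ℤ) x - single (a.hi s) (1 : ℤ) x) := by
    rw [Cell.cu, Finsupp.finsetSum_apply, Finset.sum_eq_single_of_mem s hs]
    · rfl
    · intro t ht hts
      have k : ∀ z : M.Cell, z.τ = a.τ.erase t → x ≠ z := fun z hz e =>
        Finset.notMem_erase t a.τ (hz ▸ e ▸ hτ ▸ Finset.mem_erase.2 ⟨hts, ht⟩)
      simp [k (a.lo t) rfl, k (a.hi t) rfl]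
  rw [Cell.bd_eq, Finsupp.add_apply, h1, h3, add_zero]
  rcases hx with rfl | rfl <;> simp [h2, h2.symm, ε_sq]

theorem bd_edge {a : M.Cell} {e : Ed} (he : a.c = .inr e) (b : Bool) :
    a.bd (a.en b) * a.bd (a.en b) = 1 := by
  have h1 : a.cu (a.en b) = 0 := by
    by_contra h
    obtain ⟨s, -, k⟩ := Cell.cu_ne h
    have : (a.en b).c = a.c := by rcases k with k | k <;> rw [k] <;> rfl
    rw [he] at this
    cases this
  have h2 : a.en true ≠ a.en false := fun k => by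
    have := congrArg Cell.c k
    simp only [Cell.en, he, nd] at this
    exact src_ne_tgt e (Sum.inl.inj this).symm
  rw [Cell.bd_eq, Finsupp.add_apply, h1, zero_add, Cell.tr]
  cases b <;> simp [h2, h2.symm, ← pow_add, ← two_mul, pow_mul]

/-- upper cells of the matching -/
def Up (a : M.Cell) : Prop :=
  (∃ e, a.c = .inr e) ∨ a.c = .inl (rt M (tp a)).o ∧ ∃ h : (In (tp a)).Nonempty, h.some ∈ a.τ

theorem rel {y x : M.Cell} (hy : Up y) (hx : ¬Up x) (l : lv x = lv y) (h : y.bd x ≠ 0) :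
    (∃ e, y.c = .inr e ∧ x.c = .inl ((rt M (tp y)).up e) ∧ x.τ = y.τ) ∨
      y.c = .inl (rt M (tp y)).o ∧ x.c = y.c ∧ ∃ h : (In (tp y)).Nonempty, h.some ∈ y.τ ∧
        x.τ = y.τ.erase h.some := by
  have t : tp x = tp y := congrArg Prod.fst l
  rcases Cell.bd_ne h with ⟨s, hs, k⟩ | ⟨e, b, he, rfl⟩
  · have e1 : x.c = y.c := by rcases k with rfl | rfl <;> rfl
    have e2 : x.τ = y.τ.erase s := by rcases k with rfl | rfl <;> rfl
    rcases hy with ⟨e, he⟩ | ⟨h1, h2, h3⟩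
    · exact (hx (Or.inl ⟨e, e1.trans he⟩)).elim
    · refine Or.inr ⟨h1, e1, h2, h3, ?_⟩
      by_contra n
      refine hx (Or.inr ?_)
      rw [t, e1, e2]
      exact ⟨h1, h2, Finset.mem_erase.2 ⟨fun e => n (e ▸ e2), h3⟩⟩
  · refine Or.inl ⟨e, he, ?_, rfl⟩
    have := congrArg Prod.snd l
    simp only [lv, he] at this
    exact congrArg Sum.inl this

variable (M) in
/-- the base vertex -/
def o : M.Cell := ⟨1, ∅, .inl (rt M 1).o, by simp, by simp, by simp⟩

theorem tp_o : tp (o M) = 1 := top_eq_self (by simp [o])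

theorem eq_o {x : M.Cell} (h : tp x = 1) (k : x.c.elim id (rt M 1).up = (rt M 1).o) : x = o M := by
  refine ext_tp (h.trans tp_o.symm) (Finset.eq_empty_of_forall_notMem fun s hs => ?_) ?_
  · have := mem_tp hs
    rw [h, In_eq_empty.2 rfl] at this
    exact this
  · rcases hc : x.c with t | e <;> rw [hc] at k
    · exact congrArg Sum.inl k
    · exact (up_ne _ e k).elim

theorem base (x : M.Cell) (h : ht M (lv x) ≤ ht M (lv (o M))) : x = o M := by
  have e : ht M (lv (o M)) = toLex (0, 0) := by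
    rw [lv, tp_o, ht, len_eq_zero.2 rfl]
    exact congrArg (fun n => toLex (0, n)) (rt M 1).ht_o
  rw [e] at h
  rcases Prod.Lex.toLex_le_toLex.1 h with h | ⟨h1, h2⟩
  · exact (Nat.not_lt_zero _ h).elim
  · have h3 : tp x = 1 := len_eq_zero.1 h1
    refine eq_o h3 ?_
    by_contra n
    obtain ⟨e, he, -⟩ := (rt M 1).par _ n
    have := (rt M 1).lt e
    simp only [lv, h3, ← he] at h2
    omega

theorem up_ex (x : M.Cell) (hx : ¬Up x) (ho : x ≠ o M) :
    ∃ y, Up y ∧ lv y = lv x ∧ y.bd x * y.bd x = 1 := by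
  rcases hc : x.c with t | e
  swap
  · exact (hx (Or.inl ⟨e, hc⟩)).elim
  have sub : x.τ ⊆ M.sup (.inl t) := hc ▸ x.sub
  by_cases h : t = (rt M (tp x)).o
  · have h1 : (In (tp x)).Nonempty := In_nonempty fun e => ho (eq_o e (by rw [hc, h, e]; rfl))
    have h2 : h1.some ∉ x.τ := fun k => hx (Or.inr ⟨by rw [hc, h], h1, k⟩)
    have h3 : ∀ s ∈ insert h1.some x.τ, s ∈ In (tp x) := fun s hs =>
      (Finset.mem_insert.1 hs).elim (fun e => e ▸ h1.some_mem) mem_tp
    set y := M.mk' (tp x) (insert h1.some x.τ) x.c ((In_clique _).subset h3) fun s hs => by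
      rw [hc, h]; exact (rt_spec _ (h3 s hs)).1
    have hy : Cell.Has (tp x) y := Cell.has_mk' _ _ _ _ _
    have t1 : tp y = tp x := tp_eq hy h3
    have m : h1.some ∈ y.τ := Finset.mem_insert_self _ _
    refine ⟨y, Or.inr ?_, by rw [lv, lv, t1]; rfl, bd_cube m ?_⟩
    · rw [t1]
      exact ⟨by rw [← h]; exact hc, h1, m⟩
    · exact (has_face hy m).imp
        (fun k => x.has_top.ext k (Finset.erase_insert h2).symm rfl)
        fun k => x.has_top.ext k (Finset.erase_insert h2).symm rfl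
  · obtain ⟨e, he, -⟩ := (rt M (tp x)).par t h
    have s1 : ∀ s ∈ x.τ, s ∈ M.sp ((rt M (tp x)).up e) := fun s hs => he ▸ sub hs
    have s2 : ∀ s ∈ x.τ, s ∈ M.sp ((rt M (tp x)).dn e) := fun s hs =>
      (rt_spec _ (mem_tp hs)).2 e (s1 s hs)
    let y : M.Cell := ⟨x.w, x.τ, .inr e, x.cl, fun s hs => Finset.mem_inter.2 <|
      ((rt M (tp x)).ud e).elim (fun k => ⟨k.1 ▸ s1 s hs, k.2 ▸ s2 s hs⟩)
        fun k => ⟨k.2 ▸ s2 s hs, k.1 ▸ s1 s hs⟩, x.cor⟩
    obtain ⟨b, hb⟩ := exists_nd (rt M (tp x)) e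
    have e1 : x = y.en b := Cell.ext rfl rfl (hc.trans (congrArg Sum.inl (hb.trans he).symm))
    refine ⟨y, Or.inl ⟨e, rfl⟩, ?_, e1 ▸ bd_edge rfl b⟩
    rw [lv, lv, hc]
    exact Prod.ext rfl he

theorem dn_ex (y : M.Cell) (hy : Up y) : ∃ x, ¬Up x ∧ lv x = lv y ∧ y.bd x ≠ 0 := by
  rcases hy with ⟨e, he⟩ | ⟨h1, h2, h3⟩
  · obtain ⟨b, hb⟩ := exists_nd (rt M (tp y)) e
    have e1 : (y.en b).c = .inl ((rt M (tp y)).up e) := by rw [← hb, ← he]; rfl
    refine ⟨y.en b, ?_, ?_, left_ne_zero_of_mul_eq_one (bd_edge he b)⟩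
    · rintro (⟨e', k⟩ | ⟨k, -⟩)
      · cases k
      · exact up_ne _ e (Sum.inl.inj (e1.symm.trans k))
    · rw [lv, lv, e1, he]; rfl
  · have key : ∀ x : M.Cell, x = y.lo h2.some ∨ x = y.hi h2.some → Cell.Has (tp y) x →
        ∃ x, ¬Up x ∧ lv x = lv y ∧ y.bd x ≠ 0 := fun x k hx => by
      have e1 : x.c = y.c := by rcases k with rfl | rfl <;> rfl
      have e2 : x.τ = y.τ.erase h2.some := by rcases k with rfl | rfl <;> rfl
      have t : tp x = tp y := tp_eq hx fun s hs => mem_tp (Finset.mem_of_mem_erase (e2 ▸ hs))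
      refine ⟨x, ?_, by rw [lv, lv, t, e1], left_ne_zero_of_mul_eq_one (bd_cube h3 k)⟩
      rw [Up, t, e1, e2, h1]
      rintro (⟨e', k⟩ | ⟨-, _, k⟩)
      · cases k
      · exact Finset.notMem_erase _ _ k
    exact (has_face y.has_top h3).elim (key _ (Or.inl rfl)) (key _ (Or.inr rfl))

end Ex

open Ex

/-- **exactness** -/
theorem exact (b : M.Cell →₀ ℤ) (hb : M.bdL b = 0) (hs : M.aug b = 0) : ∃ a, M.bdL a = b := by
  refine exact_of_match low bdL_bdL aug_bdL Up (o M) (by simp [o, Cell.dim, tdim]) base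
    (by simpa only [bdL_one] using up_ex) (by simpa only [bdL_one] using dn_ex) ?_ ?_ b hb hs
  · intro y x x' hy hx hx' l l' h h'
    rw [bdL_one] at h h'
    have t : tp x = tp x' := congrArg Prod.fst (l.trans l'.symm)
    rcases rel hy hx l h with ⟨e, a1, a2, a3⟩ | ⟨a1, a2, a3, a4, a5⟩ <;>
      rcases rel hy hx' l' h' with ⟨e', b1, b2, b3⟩ | ⟨b1, b2, b3, b4, b5⟩
    · cases Sum.inr.inj (a1.symm.trans b1)
      exact ext_tp t (a3.trans b3.symm) (a2.trans b2.symm)
    · cases a1.symm.trans b1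
    · cases a1.symm.trans b1
    · exact ext_tp t (a5.trans b5.symm) (a2.trans b2.symm)
  · intro y y' x hy hy' hx l l' h h'
    rw [bdL_one] at h h'
    have t : tp y' = tp y := congrArg Prod.fst (l'.symm.trans l)
    have r' := rel hy' hx l' h'
    rw [t] at r'
    rcases rel hy hx l h with ⟨e, a1, a2, a3⟩ | ⟨a1, a2, a3, a4, a5⟩ <;>
      rcases r' with ⟨e', b1, b2, b3⟩ | ⟨b1, b2, b3, b4, b5⟩
    · cases up_inj _ (Sum.inl.inj (a2.symm.trans b2))
      exact ext_tp t.symm (a3.symm.trans b3) (a1.trans b1.symm)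
    · exact (up_ne _ e (Sum.inl.inj (a2.symm.trans (b2.trans b1)))).elim
    · exact (up_ne _ e' (Sum.inl.inj (b2.symm.trans (a2.trans a1)))).elim
    · refine ext_tp t.symm ?_ (a1.trans b1.symm)
      rw [← Finset.insert_erase a4, ← Finset.insert_erase b4, ← a5, ← b5]

/-- exactness with a base vertex -/
theorem exact' (o : M.Cell) (ho : o.dim = 0) (b : M.Cell →₀ ℤ) (hb : M.bdL b = 0) :
    ∃ a k, b = M.bdL a + single o k := by
  have h0 : o.bd = 0 := by
    ext y
    by_contra h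
    have := Cell.dim_bd h
    omega
  obtain ⟨a, ha⟩ := exact (b - M.aug b • single o 1)
    (by rw [map_sub, map_smul, bdL_one, hb, h0, smul_zero, sub_zero])
    (by rw [map_sub, map_smul, aug_one, if_pos ho, smul_eq_mul, mul_one, sub_self])
  exact ⟨a, M.aug b, by rw [ha, smul_single_one, sub_add_cancel]⟩

end Crest.Agent.N255.Ce.Mir

end
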