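import Crest.Agent.N255.Ce.Co
import Crest.Agent.N255.Ce.Ex
import Crest.Agent.N255.Gc.Pd

/-!
# Row 255 (helper10): the free resolution of the mirror model and its duality
-/

set_option autoImplicit false

noncomputable section

namespace Crest.Agent.N255.Ce.Mir

open Ra Finsupp

variable {S K F Nd Ed : Type} [DecidableEq S] [Group F] [MulAction F Nd] [MulAction F Ed]
  (M : Mir S K F Nd Ed) [LinearOrder K] [Finite K]

/-- the cellular chains of the cube complex -/
def ug : UG M.G M.Cell where
  dim := Cell.dim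
  bd := Cell.bd
  dim_smul := Cell.dim_smul
  dim_bd _ _ := Cell.dim_bd
  free := Cell.free
  fin := Cell.fin
  eqv := Cell.bd_smul
  dd := bdL_bdL
  aug := aug_bdL
  ex := exact
  ne := ⟨Ex.o M, rfl⟩

/-- the free resolution -/
def fr : Gc.FR M.G M.ug.X := M.ug.fr

variable {M}

/-- **duality** -/
theorem Cham.pd (H : M.Cham) : M.fr.PD :=
  M.ug.pd Cell.dim_le H.oc H.oc_smul H.oc_dim H.oc_unit (H.oc_de M.ug.de_apply)
    (H.coex M.ug.de_apply M.ug.de_de)

/-- the cohomological clauses -/
theorem Cham.pd4 (H : M.Cham) : Gc.PD4 M.G := Gc.pd4 M.fr H.pd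

end Crest.Agent.N255.Ce.Mir
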