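import Crest.Agent.N255.Fa.Gl
import Crest.Agent.N255.Gs.Pac

/-!
# Row 255 / 233 (helper16): restriction of the cellular complex to a subgroup of finite index
-/

set_option autoImplicit false
set_option linter.unusedSectionVars false

noncomputable section

namespace Crest.Agent.N255

open Finsupp

/-- cocompactness passes to subgroups of finite index -/
theorem cocpt_res {G C : Type} [Group G] [MulAction G C] (H : Subgroup G) [H.FiniteIndex]
    (h : ∃ s : Set C, s.Finite ∧ ∀ x : C, ∃ g : G, g • x ∈ s) :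
    ∃ s : Set C, s.Finite ∧ ∀ x : C, ∃ g : H, g • x ∈ s := by
  obtain ⟨s, hs, h⟩ := h
  refine ⟨⋃ q : G ⧸ H, (fun x => q.out⁻¹ • x) '' s, Set.finite_iUnion fun q => hs.image _, fun x => ?_⟩
  obtain ⟨g, hg⟩ := h x
  obtain ⟨u, hu⟩ := QuotientGroup.mk_out_eq_mul H g
  refine ⟨u⁻¹, Set.mem_iUnion.2 ⟨(g : G ⧸ H), _, hg, ?_⟩⟩
  simp [hu, Subgroup.smul_def, mul_smul]

namespace Ce.UG

variable {G C : Type} [Group G] [MulAction G C] (U : UG G C) (H : Subgroup G) [H.FiniteIndex]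

/-- the same complex with the smaller group -/
def res : UG H C where
  dim := U.dim
  bd := U.bd
  dim_smul g := U.dim_smul g.1
  dim_bd := U.dim_bd
  free g x h := Subtype.ext (U.free g.1 x h)
  fin := cocpt_res H U.fin
  eqv g := U.eqv g.1
  dd := U.dd
  aug := U.aug
  ex := U.ex
  ne := U.ne

theorem res_dim : (U.res H).dim = U.dim := rfl
theorem res_bd : (U.res H).bd = U.bd := rfl
theorem res_X : (U.res H).X = U.X := rfl
theorem res_D : (U.res H).D = U.D := rfl
theorem res_de : (U.res H).de = U.de := rfl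
theorem res_fr_d (n : ℕ) : (U.res H).fr.d n = U.fr.d n := rfl
theorem res_fr_de (n : ℕ) : (U.res H).fr.de n = U.fr.de n := rfl

end Ce.UG

namespace Fa

open Ce Ce.Mir Ce.Mir.Cell Ra

section
variable {G C : Type} [Group G] [MulAction G C] {U : UG G C} (H : Subgroup G) [H.FiniteIndex]
  {or : C → ℤ}

theorem Qd.res {V : Set C} (q : Qd U or V) : Qd (U.res H) or V := ⟨q.1, q.2, q.3, q.4, q.5, q.6⟩

theorem pex_res {B' B : Set C} : PEx (U.res H) or B' B ↔ PEx U or B' B := Iff.rfl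

theorem Tw4.res {B : ℕ → Set C} (h : Tw4 U or B) : Tw4 (U.res H) or B := ⟨h.1, h.2, h.3, h.4⟩

theorem PQd.res {κ J : Type} [Preorder κ] {B : J → κ → Set C} (h : PQd U or B) :
    PQd (U.res H) or B := ⟨h.1, h.2, h.3, h.4⟩

omit [H.FiniteIndex] in
theorem Met.res {d : C → C → ℕ} (h : Met G d) : Met H d :=
  ⟨h.1, h.2, h.3, fun g => h.4 g.1, h.5⟩

end

variable {S K F Nd Ed : Type} [DecidableEq S] [Group F] [MulAction F Nd] [MulAction F Ed]
  [LinearOrder K] [Finite K] {M : Mir S K F Nd Ed}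

variable (M) in
/-- the core group inside `M.G` -/
def inF : F →* M.G :=
  (SemidirectProduct.inr : F →* M.G0).codRestrict M.Gs fun _ k => M.ch_one k

theorem inF_val (f : F) : (inF M f).1 = SemidirectProduct.inr f := rfl

/-- the whole complex has the compactly supported cohomology of `ℝ⁴` -/
theorem qd_univ (H : M.Cham) : Qd M.ug H.oc Set.univ where
  h4 := Cell.dim_le
  hd := H.oc_dim
  st φ := by
    rw [← lc_single φ, map_lc, map_lc]
    exact lc_eq_zero fun x _ => H.oc_de M.ug.de_apply x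
  cl _ _ := Ch.mem_Sp.2 fun _ _ => trivial
  ex b _ h k := (H.coex M.ug.de_apply M.ug.de_de b h k).imp fun _ e =>
    ⟨Ch.mem_Sp.2 fun _ _ => trivial, e⟩
  top := by
    obtain ⟨a, ha⟩ := H.oc_unit
    refine ⟨single a 1, Ch.mem_Sp.2 fun _ _ => trivial, ?_, by simp [ha]⟩
    ext y
    rw [M.ug.de_single]
    by_contra e
    have h1 : a.dim + 1 = y.dim := Cell.dim_bd e
    have := H.oc_dim a (by omega)
    have := y.dim_le
    omega

theorem vt_free (g : M.G) (v : Vt M) (h : g.1 • v = v) : g = 1 :=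
  Cell.free g (M.mk' v.1 ∅ (.inl v.2) (by simp) (by simp)) (((has_mk' _ _ _ _ _).smul g).ext
    (by rw [show g.1.left * aut (M.ρ g.1.right) v.1 = v.1 from congrArg Prod.fst h]
        exact has_mk' _ _ _ _ _)
    (by simp [smul_τ, mk']) (congrArg Sum.inl (congrArg Prod.snd h)))

variable (G' : Subgroup M.G)

theorem orb_inj (o : Vt M) : Function.Injective fun g : G' => g.1.1 • o := fun g g' h =>
  Subtype.ext (inv_mul_eq_one.1 (vt_free (g.1⁻¹ * g'.1) o (by
    rw [Subgroup.coe_mul, mul_smul, show g'.1.1 • o = g.1.1 • o from h.symm, Subgroup.coe_inv,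
      inv_smul_smul])))

theorem orb_fin (o : Vt M) {N : Set (Vt M)} (h : N.Finite) : {g : G' | g.1.1 • o ∈ N}.Finite :=
  h.preimage (orb_inj G' o).injOn

/-- finite sets of group elements move the orbit map by a bounded amount -/
theorem orb_lip (o : Vt M) {A : Set G'} (hA : A.Finite) :
    ∃ d, ∀ g : G', ∀ s ∈ A, dl M (g.1.1 • o) ((g * s).1.1 • o) ≤ d := by
  obtain ⟨d, hd⟩ := (hA.image fun s : G' => dl M o (s.1.1 • o)).bddAbove
  exact ⟨d, fun g s hs => by
    rw [Subgroup.coe_mul, Subgroup.coe_mul, mul_smul, dl_smul]; exact hd ⟨s, hs, rfl⟩⟩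

theorem orb_near (o : Vt M) (d : ℕ) : ∃ A : Set G', A.Finite ∧
    ∀ g g' : G', dl M (g.1.1 • o) (g'.1.1 • o) ≤ d → g⁻¹ * g' ∈ A :=
  ⟨_, orb_fin G' o (ball_fin o d), fun g g' h => by
    rw [← dl_smul g.1.1⁻¹, inv_smul_smul, ← mul_smul] at h; exact h⟩

variable [G'.FiniteIndex]

/-- the orbit is dense -/
theorem orb_dense (o : Vt M) : ∃ d, ∀ v : Vt M, ∃ g : G', dl M (g.1.1 • o) v ≤ d := by
  obtain ⟨s, hs, h⟩ := (M.ug.res G').fin
  obtain ⟨d, hd⟩ := (hs.image fun x => dl M o (pt x)).bddAbove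
  refine ⟨d, fun v => ?_⟩
  obtain ⟨g, hg⟩ := h (M.mk' v.1 ∅ (.inl v.2) (by simp) (by simp))
  have : dl M o (pt (g.1 • _)) ≤ d := hd ⟨_, hg, rfl⟩
  refine ⟨g⁻¹, ?_⟩
  rw [← dl_smul g.1.1, Subgroup.coe_inv, Subgroup.coe_inv, smul_inv_smul]
  rw [pt_smul] at this
  convert this
  simp [pt, mk', cn, Mir.nd]

/-- equivariant labels of the cells are uniformly close to the cells -/
theorem lab_near (o : Vt M) (L : Gs.Lab G' (M.ug.res G').X) :
    ∃ d, ∀ n (x : (M.ug.res G').X n) (v : Vt M), Vc v x.1 → dl M ((L.l n x).1.1 • o) v ≤ d := by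
  obtain ⟨d, hd⟩ := unif (M.ug.res G') (p := fun x d => dl M ((L.l _ ⟨x, rfl⟩).1.1 • o) (pt x) ≤ d)
    (fun _ _ _ h k => k.trans h) (fun g x d k => by
      have e : ∀ n (h : (M.ug.res G').dim (g • x) = n) (h' : (M.ug.res G').dim x = n),
          L.l n ⟨g • x, h⟩ = g * L.l n ⟨x, h'⟩ := fun n h h' => L.smul n g ⟨x, h'⟩
      have e' : ∀ n m (h : (M.ug.res G').dim x = n) (h' : (M.ug.res G').dim x = m),
          L.l n ⟨x, h⟩ = L.l m ⟨x, h'⟩ := fun n m h h' => by subst h h'; rfl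
      rw [e _ rfl ((M.ug.res G').dim_smul g x).symm, e' _ _ _ rfl, Subgroup.smul_def, pt_smul,
        Subgroup.coe_mul, Subgroup.coe_mul, mul_smul, dl_smul] at k
      exact k) fun x => ⟨_, le_rfl⟩
  refine ⟨d + 4, fun n ⟨x, hx⟩ v h => ?_⟩
  subst hx
  exact (dl_tri' _ (pt x) _).trans (add_le_add (hd x) ((vc_pt x).dl_le h))

end Fa

end Crest.Agent.N255

end
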