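import Crest.Agent.N255.Gc.Defs
import Crest.Agent.N255.Fl.Filt

/-!
# Row 255 (helper10): from an ungraded cellular chain complex to `FR` and `PD`
-/

set_option autoImplicit false

noncomputable section

namespace Crest.Agent.N255.Ce

open Finsupp Gc

/-- an ungraded free cocompact acyclic cellular chain complex -/
structure UG (G C : Type) [Group G] [MulAction G C] where
  dim : C → ℕ
  bd : C → C →₀ ℤ
  dim_smul : ∀ (g : G) x, dim (g • x) = dim x
  dim_bd : ∀ y x, bd y x ≠ 0 → dim x + 1 = dim y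
  free : ∀ (g : G) (x : C), g • x = x → g = 1
  fin : ∃ s : Set C, s.Finite ∧ ∀ x : C, ∃ g : G, g • x ∈ s
  eqv : ∀ (g : G) y x, bd (g • y) (g • x) = bd y x
  dd : ∀ b, linearCombination ℤ bd (linearCombination ℤ bd b) = 0
  aug : ∀ b, linearCombination ℤ (fun a => if dim a = 0 then (1 : ℤ) else 0) (linearCombination ℤ bd b) = 0
  ex : ∀ b, linearCombination ℤ bd b = 0 →
    linearCombination ℤ (fun a => if dim a = 0 then (1 : ℤ) else 0) b = 0 → ∃ a, linearCombination ℤ bd a = b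
  ne : ∃ x, dim x = 0

theorem lc_comm {C : Type} (φ ψ : C →₀ ℤ) : linearCombination ℤ φ ψ = linearCombination ℤ ψ φ := by
  classical
  rw [linearCombination_apply, linearCombination_apply,
    sum_of_support_subset ψ (s := φ.support ∪ ψ.support) Finset.subset_union_right _ (by simp),
    sum_of_support_subset φ (s := φ.support ∪ ψ.support) Finset.subset_union_left _ (by simp)]
  exact Finset.sum_congr rfl fun _ _ => mul_comm _ _

theorem lc_eq_zero {C : Type} {f : C → ℤ} {φ : C →₀ ℤ} (h : ∀ x, φ x ≠ 0 → f x = 0) :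
    linearCombination ℤ f φ = 0 :=
  Finset.sum_eq_zero fun x hx => show φ x • f x = 0 by rw [h x (mem_support_iff.1 hx), smul_zero]

theorem lc_congr {C : Type} {f g : C → ℤ} {φ : C →₀ ℤ} (h : ∀ x, φ x ≠ 0 → f x = g x) :
    linearCombination ℤ f φ = linearCombination ℤ g φ :=
  Finset.sum_congr rfl fun x hx => show φ x • f x = φ x • g x by rw [h x (mem_support_iff.1 hx)]

namespace UG

variable {G C : Type} [Group G] [MulAction G C] (U : UG G C)

/-- the cells of dimension `n` -/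
def X (n : ℕ) : Type := {x : C // U.dim x = n}

instance (n : ℕ) : MulAction G (U.X n) where
  smul g x := ⟨g • x.1, (U.dim_smul g x.1).trans x.2⟩
  one_smul x := Subtype.ext (one_smul G x.1)
  mul_smul g h x := Subtype.ext (mul_smul g h x.1)

theorem smul_val {n : ℕ} (g : G) (x : U.X n) : (g • x).1 = g • x.1 := rfl

/-- extension by zero -/
def ι (n : ℕ) : (U.X n →₀ ℤ) →ₗ[ℤ] (C →₀ ℤ) := lmapDomain ℤ ℤ fun x => x.1

/-- restriction -/
def π (n : ℕ) : (C →₀ ℤ) →ₗ[ℤ] (U.X n →₀ ℤ) := lcomapDomain (fun x => x.1) Subtype.val_injective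

theorem π_apply (n : ℕ) (b : C →₀ ℤ) (x : U.X n) : U.π n b x = b x.1 := rfl

theorem ι_val {n : ℕ} (a : U.X n →₀ ℤ) (x : U.X n) : U.ι n a x.1 = a x :=
  mapDomain_apply Subtype.val_injective a x

theorem ι_ne {n : ℕ} (a : U.X n →₀ ℤ) {x : C} (h : U.ι n a x ≠ 0) : U.dim x = n := by
  by_contra e
  exact h (mapDomain_of_notMem_range _ _ fun ⟨y, hy⟩ => e (hy ▸ y.2))

theorem ι_π {n : ℕ} (b : C →₀ ℤ) {x : C} (h : U.dim x = n) : U.ι n (U.π n b) x = b x :=
  U.ι_val (U.π n b) ⟨x, h⟩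

theorem ι_single {n : ℕ} (x : U.X n) (k : ℤ) : U.ι n (single x k) = single x.1 k := mapDomain_single

theorem lc_ι {n : ℕ} (f : C → ℤ) (a : U.X n →₀ ℤ) :
    linearCombination ℤ f (U.ι n a) = linearCombination ℤ (fun x : U.X n => f x.1) a :=
  linearCombination_mapDomain ℤ _ _

/-- the ungraded boundary -/
def D : (C →₀ ℤ) →ₗ[ℤ] (C →₀ ℤ) := linearCombination ℤ U.bd

theorem D_single (y : C) : U.D (single y 1) = U.bd y := by rw [D, linearCombination_single, one_smul]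

theorem D_ne {b : C →₀ ℤ} {x : C} (h : U.D b x ≠ 0) : ∃ y, b y ≠ 0 ∧ U.dim x + 1 = U.dim y := by
  obtain ⟨y, h1, h2⟩ := Fl.exists_of_ne U.D h
  exact ⟨y, h1, U.dim_bd y x (U.D_single y ▸ h2)⟩

theorem D_congr {b b' : C →₀ ℤ} {x : C} (h : ∀ y, U.dim y = U.dim x + 1 → b y = b' y) :
    U.D b x = U.D b' x := by
  rw [← sub_eq_zero, ← Finsupp.sub_apply, ← map_sub]
  by_contra n
  obtain ⟨y, h1, h2⟩ := U.D_ne n
  exact h1 (by rw [Finsupp.sub_apply, h y h2.symm, sub_self])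

/-- the graded boundary -/
def d (n : ℕ) : (U.X (n + 1) →₀ ℤ) →ₗ[ℤ] (U.X n →₀ ℤ) := U.π n ∘ₗ U.D ∘ₗ U.ι (n + 1)

theorem d_apply (n : ℕ) (a : U.X (n + 1) →₀ ℤ) (x : U.X n) : U.d n a x = U.D (U.ι (n + 1) a) x.1 := rfl

theorem d_single (n : ℕ) (y : U.X (n + 1)) (x : U.X n) : U.d n (single y 1) x = U.bd y.1 x.1 := by
  rw [d_apply, ι_single, D_single]

theorem ι_d (n : ℕ) (a : U.X (n + 1) →₀ ℤ) : U.ι n (U.d n a) = U.D (U.ι (n + 1) a) := by
  ext x
  by_cases e : U.dim x = n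
  · exact U.ι_π _ e
  · rw [not_ne_iff.1 fun h => e (U.ι_ne _ h), eq_comm]
    by_contra h
    obtain ⟨y, h1, h2⟩ := U.D_ne h
    have := U.ι_ne _ h1
    omega

theorem d_π (n : ℕ) {a : C →₀ ℤ} {b : U.X n →₀ ℤ} (h : U.D a = U.ι n b) : U.d n (U.π (n + 1) a) = b := by
  ext x
  rw [d_apply, ← U.ι_val b x, ← h]
  exact U.D_congr fun y hy => U.ι_π _ (by rw [hy, x.2])

/-- the free resolution -/
def fr : FR G U.X where
  d := U.d
  free _ g x h := U.free g x.1 (congrArg Subtype.val h)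
  fin n := by
    obtain ⟨s, hs, h⟩ := U.fin
    exact ⟨(fun x => x.1) ⁻¹' s, hs.preimage Subtype.val_injective.injOn, fun x => h x.1⟩
  eqv n g y := by
    ext x
    rw [mapDomain_smul_apply, d_single, d_single, smul_val, smul_val, ← U.eqv g y.1, smul_inv_smul]
  exact n b := by
    refine ⟨fun h => ?_, fun ⟨a, h⟩ => ?_⟩
    · obtain ⟨a, ha⟩ := U.ex (U.ι (n + 1) b) (by rw [← D, ← ι_d, h, map_zero])
        (lc_eq_zero fun x hx => if_neg (by rw [U.ι_ne _ hx]; omega))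
      exact ⟨_, U.d_π _ ha⟩
    · ext x
      rw [← h, d_apply, ι_d]
      exact DFunLike.congr_fun (U.dd _) _
  exact0 b := by
    have e : ∀ b : U.X 0 →₀ ℤ, linearCombination ℤ (fun _ : U.X 0 => (1 : ℤ)) b =
        linearCombination ℤ (fun a => if U.dim a = 0 then (1 : ℤ) else 0) (U.ι 0 b) := fun b => by
      rw [lc_ι]; exact lc_congr fun x _ => (if_pos x.2).symm
    refine ⟨fun h => ?_, fun ⟨a, h⟩ => ?_⟩
    · obtain ⟨a, ha⟩ := U.ex (U.ι 0 b) (Finsupp.ext fun x => by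
        by_contra n
        obtain ⟨y, h1, h2⟩ := U.D_ne n
        have := U.ι_ne _ h1
        omega) (e b ▸ h)
      exact ⟨_, U.d_π _ ha⟩
    · rw [← h, e, ι_d]
      exact U.aug _
  ne := U.ne.elim fun x h => ⟨⟨x, h⟩⟩

/-- the coboundary of a cell -/
def cof (x : C) : C →₀ ℤ :=
  ofSupportFinite (fun y => U.bd y x) (by
    obtain ⟨s, hs, h⟩ := U.fin
    exact finite_col U.free hs h U.bd U.eqv x)

/-- the ungraded coboundary of compactly supported cochains -/
def de : (C →₀ ℤ) →ₗ[ℤ] (C →₀ ℤ) := linearCombination ℤ U.cof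

theorem de_single (x y : C) : U.de (single x 1) y = U.bd y x := by
  rw [de, linearCombination_single, one_smul]; rfl

theorem de_apply (φ : C →₀ ℤ) (y : C) : U.de φ y = linearCombination ℤ φ (U.bd y) := by
  rw [lc_comm, de, linearCombination_apply, linearCombination_apply, Finsupp.sum_apply]; rfl

theorem de_congr {φ ψ : C →₀ ℤ} {y : C} (h : ∀ x, U.dim x + 1 = U.dim y → φ x = ψ x) :
    U.de φ y = U.de ψ y := by
  rw [de_apply, de_apply]; exact lc_congr fun x hx => h x (U.dim_bd y x hx)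

theorem de_de (φ : C →₀ ℤ) : U.de (U.de φ) = 0 := by
  ext z
  have h : ∀ b : C →₀ ℤ, linearCombination ℤ (U.de φ) b = linearCombination ℤ φ (U.D b) := fun b => by
    induction b using Finsupp.induction_linear with
    | zero => simp
    | add a b ha hb => simp only [map_add, ha, hb]
    | single y r =>
      rw [← smul_single_one, map_smul, map_smul, map_smul, linearCombination_single, one_smul, de_apply,
        D_single]
  rw [de_apply, h, ← D_single, D, U.dd, map_zero, Finsupp.zero_apply]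

theorem fr_de (n : ℕ) : U.fr.de n = U.π (n + 1) ∘ₗ U.de ∘ₗ U.ι n :=
  (U.fr.eq_de n fun x y => by
    rw [LinearMap.comp_apply, LinearMap.comp_apply, ι_single, π_apply, de_single]
    exact (U.d_single n y x).symm).symm

theorem ι_de (n : ℕ) (φ : U.X n →₀ ℤ) : U.ι (n + 1) (U.fr.de n φ) = U.de (U.ι n φ) := by
  ext y
  by_cases e : U.dim y = n + 1
  · rw [fr_de]; exact U.ι_π _ e
  · rw [not_ne_iff.1 fun h => e (U.ι_ne _ h), de_apply, lc_eq_zero fun x hx => ?_]
    by_contra h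
    have := U.ι_ne _ h
    have := U.dim_bd _ _ hx
    omega

theorem de_π (n : ℕ) {ψ : C →₀ ℤ} {φ : U.X (n + 1) →₀ ℤ} (h : U.de ψ = U.ι (n + 1) φ) :
    U.fr.de n (U.π n ψ) = φ := by
  ext y
  rw [fr_de, ← U.ι_val φ y, ← h]
  exact U.de_congr fun x hx => U.ι_π _ (Nat.succ_injective (hx.trans y.2))

/-- Poincare duality from the ungraded cochains -/
theorem pd (h4 : ∀ x, U.dim x ≤ 4) (or : C → ℤ) (hs : ∀ (g : G) x, or (g • x) = or x)
    (hd : ∀ x, or x ≠ 0 → U.dim x = 4) (hu : ∃ x, or x = 1)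
    (st : ∀ x, linearCombination ℤ or (U.de (single x 1)) = 0)
    (co : ∀ φ, U.de φ = 0 → linearCombination ℤ or φ = 0 → ∃ ψ, U.de ψ = φ) : U.fr.PD := by
  have z : ∀ n, n ≠ 4 → ∀ φ : U.X n →₀ ℤ, linearCombination ℤ or (U.ι n φ) = 0 := fun n hn φ =>
    lc_eq_zero fun x hx => by_contra fun e => hn ((U.ι_ne _ hx).symm.trans (hd x e))
  have e4 : U.fr.de 4 = 0 := LinearMap.ext fun φ => Finsupp.ext fun y => by
    have := h4 y.1
    have := y.2
    omega
  refine ⟨(injective_iff_map_eq_zero _).2 fun φ h => ?_, fun n hn φ => ⟨fun h => ?_, fun ⟨ψ, h⟩ => ?_⟩, e4,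
    (linearCombination ℤ fun x : U.X 4 => or x.1).toAddMonoidHom, fun φ => ⟨fun h => ?_, fun ⟨ψ, h⟩ => ?_⟩,
    fun k => ?_, fun g x => ?_⟩
  · obtain ⟨ψ, e⟩ := co (U.ι 0 φ) (by rw [← ι_de, h, map_zero]) (z 0 (by omega) φ)
    ext x
    rw [← U.ι_val φ x, ← e, de_apply]
    exact lc_eq_zero fun y hy => by
      have := U.dim_bd _ _ hy
      have := x.2
      omega
  · obtain ⟨ψ, e⟩ := co (U.ι (n + 1) φ) (by rw [← ι_de, h, map_zero]) (z _ (by omega) φ)
    exact ⟨_, U.de_π n e⟩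
  · rw [← h]; exact U.fr.de_de n ψ
  · obtain ⟨ψ, e⟩ := co (U.ι 4 φ) (by rw [← ι_de, e4]; simp) (by rw [lc_ι]; exact h)
    exact ⟨_, U.de_π 3 e⟩
  · have : (linearCombination ℤ or ∘ₗ U.de : (C →₀ ℤ) →ₗ[ℤ] ℤ) = 0 :=
      Finsupp.lhom_ext' fun x => LinearMap.ext_ring (st x)
    rw [← h, LinearMap.toAddMonoidHom_coe, ← lc_ι, ι_de]
    exact LinearMap.congr_fun this _
  · obtain ⟨x, hx⟩ := hu
    let y : U.X 4 := ⟨x, hd x (by omega)⟩
    exact ⟨single y k, (linearCombination_single ℤ k y).trans (by rw [hx, smul_eq_mul, mul_one])⟩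
  · simp [smul_val, hs]

end UG

end Crest.Agent.N255.Ce
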