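import Crest.Agent.N255.Ce.Ord
import Crest.Agent.N255.Ce.Ug

/-!
# Row 255 (helper10): equivariance of the boundary, compactly supported cochains from the chamber complexes
-/

set_option autoImplicit false
set_option linter.unusedSectionVars false

noncomputable section

namespace Crest.Agent.N255.Ce.Mir

open Ra Finsupp

variable {S K F Nd Ed : Type} [DecidableEq S] [Group F] [MulAction F Nd] [MulAction F Ed]
  {M : Mir S K F Nd Ed} [LinearOrder K] {s : S} {u : W M.Γ}

theorem ε_image (f : F) (s : S) (τ : Finset S) : M.ε (M.ρ f s) (τ.image (M.ρ f)) = M.ε s τ := by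
  rw [ε, ε, Finset.filter_image, Finset.card_image_of_injective _ (M.ρ f).injective]
  simp only [M.col_ρ]

/-- the sign as an integer -/
def sg (w : W M.Γ) : ℤ := (sgn w : ℤˣ)

@[simp] theorem sg_one : sg (1 : W M.Γ) = 1 := by simp [sg]

theorem sg_mul (w u : W M.Γ) : sg (w * u) = sg w * sg u := by simp [sg]

theorem sg_gen (w : W M.Γ) (s : S) : sg (w * gen M.Γ s) = -sg w := by simp [sg]

theorem sg_sq (w : W M.Γ) : sg w * sg w = 1 := by
  rw [sg, ← Units.val_mul, Int.units_mul_self, Units.val_one]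

theorem sg_aut (f : F) (w : W M.Γ) : sg (aut (M.ρ f) w) = sg w := by rw [sg, sg, sgn_eq, sgn_eq, len_aut]

theorem sg_eq [Fintype K] (w : W M.Γ) : sg w = if ∑ k, M.ch w k = 0 then 1 else -1 := by
  induction w using ind_right with
  | one => simp
  | mul w s ih =>
    have : ∀ x : ZMod 2, -(if x = 0 then 1 else -1 : ℤ) = if x + 1 = 0 then 1 else -1 := by decide
    rw [sg_gen, ih, this]
    simp [ch_mul, ch_gen, Finset.sum_add_distrib]

theorem sg_G [Finite K] (g : M.G) : sg g.1.left = 1 := by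
  have := Fintype.ofFinite K
  rw [sg_eq, if_pos (Finset.sum_eq_zero fun k _ => g.2 k)]

namespace Cell

variable {a x y : M.Cell}

theorem smul_lo (g : M.G) (a : M.Cell) (s : S) : (g • a).lo (M.ρ g.1.right s) = g • a.lo s :=
  Cell.ext rfl (Finset.image_erase (M.ρ _).injective _ _).symm rfl

theorem smul_hi (g : M.G) (hs : s ∈ a.τ) : (g • a).hi (M.ρ g.1.right s) = g • a.hi s :=
  Cell.ext (by rw [hi_w (Finset.mem_image_of_mem _ hs), smul_w, smul_w, hi_w hs, map_mul, aut_gen, mul_assoc])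
    (Finset.image_erase (M.ρ _).injective _ _).symm rfl

theorem smul_en (g : M.G) (a : M.Cell) (b : Bool) : (g • a).en b = g • a.en b :=
  Cell.ext rfl rfl (congrArg Sum.inl (M.nd_smul b _ _))

theorem lc_bd (φ : M.Cell → ℤ) (a : M.Cell) : linearCombination ℤ φ a.bd =
    ∑ s ∈ a.τ, M.ε s a.τ * (φ (a.lo s) - φ (a.hi s)) +
      (-1) ^ a.τ.card * (φ (a.en true) - φ (a.en false)) := by
  simp only [bd, map_add, map_sum, map_smul, map_sub, linearCombination_single, smul_eq_mul, one_mul]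

theorem bd_apply (y x : M.Cell) : y.bd x = linearCombination ℤ (single x (1 : ℤ)) y.bd := by
  rw [lc_comm, linearCombination_single, one_smul]

theorem bd_smul (g : M.G) (y x : M.Cell) : (g • y).bd (g • x) = y.bd x := by
  have e : ∀ z : M.Cell, single (g • x) (1 : ℤ) (g • z) = single x (1 : ℤ) z := fun z =>
    single_apply_left (MulAction.injective g) x z 1
  rw [bd_apply, bd_apply, lc_bd, lc_bd, smul_en, smul_en, e, e, smul_τ,
    Finset.card_image_of_injective _ (M.ρ _).injective, Finset.sum_image (M.ρ _).injective.injOn]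
  refine congrArg (· + _) (Finset.sum_congr rfl fun s hs => ?_)
  rw [ε_image, smul_lo, smul_hi g hs, e, e]

theorem le_of_bd (h : y.bd x ≠ 0) : x ≤ y := by
  by_contra n
  have e : ∀ z ≤ y, single x (1 : ℤ) z = 0 := fun z hz => single_eq_of_ne fun e => n (e ▸ hz)
  apply h
  rw [bd_apply, lc_bd, e _ (en_le _ _), e _ (en_le _ _),
    Finset.sum_eq_zero fun s _ => by rw [e _ (lo_le _ _), e _ (hi_le _ _)]; simp]
  simp

theorem not_lo_hi (hs : s ∈ a.τ) (h : Has u (a.lo s)) (k : Has u (a.hi s)) : False := by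
  have r := mul_mem h (inv_mem k)
  rw [hi_w hs] at r
  obtain ⟨σ, hσ, e⟩ := (mem_WT (a.lo s).cl).1 r
  have e' : gen M.Γ s = pr M.Γ σ := by rw [← e]; simp [lo, mul_assoc]
  have := ch_pr a.cl (hσ.trans (Finset.erase_subset _ _)) hs
  rw [← e', ch_gen, if_pos rfl, if_neg fun x => Finset.notMem_erase s _ (hσ x)] at this
  exact one_ne_zero this

theorem Has.lo_or_hi (h : Has u a) (hs : s ∈ a.τ) : Has u (a.lo s) ∨ Has u (a.hi s) := by
  obtain ⟨σ, hσ, e⟩ := (mem_WT a.cl).1 h
  have cσ := a.cl.subset (Finset.coe_subset.2 hσ)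
  by_cases k : s ∈ σ
  · right
    rw [Has, hi_w hs, mul_inv_rev, gen_inv, mul_assoc, e, (comm_pr fun t ht n => cσ k ht n).eq,
      ← pr_erase cσ k]
    exact pr_mem_WT (Finset.coe_subset.2 (Finset.erase_subset_erase _ hσ))
  · left
    show a.w⁻¹ * u ∈ _
    rw [e]
    exact pr_mem_WT (Finset.coe_subset.2 (Finset.subset_erase.2 ⟨hσ, k⟩))

/-- the type of a cell -/
def ty (a : M.Cell) : Finset S × (Nd ⊕ Ed) := (a.τ, a.c)

theorem val_ty (a : M.Cell) : M.Val ∅ a.ty := ⟨a.cl, a.sub, Finset.disjoint_empty_right _⟩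

theorem ty_inj (u : W M.Γ) : Set.InjOn ty {a : M.Cell | Has u a} := fun _ ha _ hb e =>
  Has.ext ha hb (congrArg Prod.fst e) (congrArg Prod.snd e)

/-- the shortest vertex of the cube -/
def lev (a : M.Cell) : W M.Γ := bot a.w a.τ

theorem lev_eq : a.lev = u ↔ Has u a ∧ Disjoint a.τ (InF u) := by
  refine ⟨fun h => h ▸ ⟨has_bot a, Finset.disjoint_left.2 fun s hs k => ?_⟩, fun h => ?_⟩
  · exact nmem_In_bot a.cl hs (mem_InF.1 k)
  · rw [lev, ← h.1.bot_eq, bot_eq_self fun s hs k => Finset.disjoint_left.1 h.2 hs (mem_InF.2 k)]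

theorem lev_le (h : x ≤ y) : y.lev = x.lev ∨ len y.lev < len x.lev := by
  have k : Has x.lev y := (has_bot x).mono h
  have l := len_bot y.cl x.lev
  rw [k.bot_eq] at l
  rcases Nat.eq_zero_or_pos (y.τ ∩ InF x.lev).card with e | e
  · exact .inl (lev_eq.2 ⟨k, Finset.disjoint_iff_inter_eq_empty.2 (Finset.card_eq_zero.1 e)⟩)
  · exact .inr (by rw [lev]; omega)

end Cell

open Cell

open Classical in
/-- a chamber cochain, placed on the cells containing `u` -/
def lft (u : W M.Γ) (φ : Finset S × (Nd ⊕ Ed) →₀ ℤ) : M.Cell →₀ ℤ :=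
  ofSupportFinite (fun a => if Has u a then sg a.w * φ a.ty else 0) (by
    refine Set.Finite.of_finite_image (f := Cell.ty) (φ.hasFiniteSupport.subset ?_)
      ((ty_inj u).mono fun a ha => by_contra fun n => ha (if_neg n))
    rintro _ ⟨a, ha, rfl⟩ e
    exact ha (by simp [e]))

theorem lft_pos {a : M.Cell} (φ : Finset S × (Nd ⊕ Ed) →₀ ℤ) (h : Has u a) :
    lft u φ a = sg a.w * φ a.ty := if_pos h

theorem lft_neg {a : M.Cell} (φ : Finset S × (Nd ⊕ Ed) →₀ ℤ) (h : ¬Has u a) : lft u φ a = 0 := if_neg h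

theorem lc_lft {a : M.Cell} (φ : Finset S × (Nd ⊕ Ed) →₀ ℤ) (h : Has u a) :
    linearCombination ℤ (lft u φ) a.bd = sg a.w * M.dD φ a.ty := by
  rw [lc_bd, lft_pos φ (a := a.en true) h, lft_pos φ (a := a.en false) h, dD, mul_add, Finset.mul_sum]
  refine congrArg₂ (· + ·) (Finset.sum_congr rfl fun s hs => ?_) (by simp only [Cell.ty, en]; ring)
  rcases h.lo_or_hi hs with k | k
  · rw [lft_pos φ k, lft_neg φ (not_lo_hi hs k)]
    simp only [Cell.ty, lo]; ring
  · rw [lft_pos φ k, lft_neg φ fun k' => not_lo_hi hs k' k, hi_w hs, sg_gen]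
    simp only [Cell.ty, hi]; ring

/-- the chamber cochain of a cochain -/
def res (φ : M.Cell →₀ ℤ) : Finset S × (Nd ⊕ Ed) →₀ ℤ :=
  mapDomain Cell.ty (onFinset φ.support (fun a => sg a.w * φ a) fun _ h =>
    mem_support_iff.2 (right_ne_zero_of_mul h))

theorem res_ty {φ : M.Cell →₀ ℤ} (hφ : ∀ a, φ a ≠ 0 → Has u a) {a : M.Cell} (h : Has u a) :
    res φ a.ty = sg a.w * φ a :=
  mapDomain_apply' {a | Has u a} _ (fun b hb => hφ b (right_ne_zero_of_mul (mem_support_iff.1 hb)))
    (ty_inj u) h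

theorem res_ne {φ : M.Cell →₀ ℤ} {q : Finset S × (Nd ⊕ Ed)} (h : res φ q ≠ 0) :
    ∃ a, φ a ≠ 0 ∧ a.ty = q := by
  classical
  obtain ⟨a, ha, e⟩ := Finset.mem_image.1 (mapDomain_support (mem_support_iff.2 h))
  exact ⟨a, right_ne_zero_of_mul (mem_support_iff.1 ha), e⟩

theorem lft_res {φ : M.Cell →₀ ℤ} (hφ : ∀ a, φ a ≠ 0 → Has u a) : lft u (res φ) = φ := by
  ext a
  by_cases h : Has u a
  · rw [lft_pos _ h, res_ty hφ h, ← mul_assoc, sg_sq, one_mul]
  · rw [lft_neg _ h, not_ne_iff.1 fun e => h (hφ a e)]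

theorem sum_res (f : Finset S × (Nd ⊕ Ed) → ℤ) (φ : M.Cell →₀ ℤ) :
    ((res φ).sum fun q k => f q * k) = linearCombination ℤ (fun a => sg a.w * f a.ty) φ := by
  rw [res, sum_mapDomain_index (by simp) (by simp [mul_add]), linearCombination_apply,
    onFinset_sum _ (by simp)]
  exact Finset.sum_congr rfl fun a _ => by simp only [smul_eq_mul]; ring

namespace Cham

variable (H : M.Cham)

/-- the orientation of the cells -/
def oc (a : M.Cell) : ℤ := sg a.w * H.or a.ty

theorem oc_smul [Finite K] (g : M.G) (a : M.Cell) : H.oc (g • a) = H.oc a := by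
  rw [oc, oc, smul_w, sg_mul, sg_G, one_mul, sg_aut]
  exact congrArg _ (H.or_smul _ _ _ a.val_ty)

theorem oc_dim (a : M.Cell) (h : H.oc a ≠ 0) : a.dim = 4 := H.or_dim _ a.val_ty (right_ne_zero_of_mul h)

theorem oc_unit : ∃ a, H.oc a = 1 := by
  obtain ⟨q, h, e⟩ := H.unit
  exact ⟨⟨1, q.1, q.2, h.1, h.2.1, fun _ _ => M.ch_one _⟩, by rw [oc, sg_one, one_mul]; exact e⟩

variable {δ : (M.Cell →₀ ℤ) →ₗ[ℤ] (M.Cell →₀ ℤ)} (hδ : ∀ φ y, δ φ y = linearCombination ℤ φ y.bd)
include hδ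

omit H in
theorem le_of_de {x y : M.Cell} {k : ℤ} (h : δ (single x k) y ≠ 0) : x ≤ y := by
  rw [hδ, lc_comm, linearCombination_single] at h
  exact le_of_bd (right_ne_zero_of_mul h)

theorem oc_de (x : M.Cell) : linearCombination ℤ H.oc (δ (single x 1)) = 0 := by
  have h1 : ∀ a, single x (sg x.w) a ≠ 0 → Has x.w a := fun a h =>
    (single_apply_ne_zero.1 h).1 ▸ has_self x
  have h2 : ∀ a, δ (single x (sg x.w)) a ≠ 0 → Has x.w a := fun a h => (le_of_de hδ h).2.2
  have h3 : res (single x (sg x.w)) = single x.ty 1 := by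
    ext q
    by_cases e : q = x.ty
    · rw [e, res_ty h1 (has_self x), single_eq_same, single_eq_same, sg_sq]
    · rw [single_eq_of_ne e]
      by_contra n
      obtain ⟨a, ha, rfl⟩ := res_ne n
      exact e (by rw [(single_apply_ne_zero.1 ha).1])
  have := H.stokes x.ty x.val_ty (res (δ (single x (sg x.w)))) (fun q h => by
    obtain ⟨a, -, rfl⟩ := res_ne h
    exact a.val_ty) fun q h => by
      have k := has_mk' x.w q.1 q.2 h.1 h.2.1
      have e := res_ty h2 k
      rw [hδ, ← lft_res h1, lc_lft _ k, ← mul_assoc, sg_sq, one_mul, lft_res h1, h3] at e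
      exact e
  rw [sum_res, ← smul_single_one, map_smul, map_smul, smul_eq_mul] at this
  exact (mul_eq_zero.1 this).resolve_left (left_ne_zero_of_mul_eq_one (sg_sq _))

/-- **compactly supported cohomology of the cube complex** -/
theorem coex (hdd : ∀ φ, δ (δ φ) = 0) (φ : M.Cell →₀ ℤ) (h : δ φ = 0)
    (k : linearCombination ℤ H.oc φ = 0) : ∃ ψ, δ ψ = φ := by
  have low : Fl.Low len lev lev δ := fun x y h => lev_le (le_of_de hδ h)
  have st : (linearCombination ℤ H.oc ∘ₗ δ : (M.Cell →₀ ℤ) →ₗ[ℤ] ℤ) = 0 :=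
    Finsupp.lhom_ext' fun x => LinearMap.ext_ring (H.oc_de hδ x)
  refine Fl.mem_range_of_gr low (fun b => δ b = 0 ∧ linearCombination ℤ H.oc b = 0)
    (fun b a hb => ⟨by rw [map_sub, hb.1, hdd, sub_zero], by
      rw [map_sub, hb.2, show linearCombination ℤ H.oc (δ a) = 0 from LinearMap.congr_fun st a, sub_zero]⟩)
    (fun u b hb hl => ?_) φ ⟨h, k⟩
  have on := Fl.on_part (lX := lev) u b
  have hs : ∀ a, Fl.part lev u b a ≠ 0 → Has u a := fun a h => (lev_eq.1 (on a h)).1
  obtain ⟨ψ, h1, h2⟩ := H.ex (InF u) (InF_clique u) (res (Fl.part lev u b)) (fun q h => by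
    obtain ⟨a, ha, rfl⟩ := res_ne h
    exact ⟨a.cl, a.sub, (lev_eq.1 (on a ha)).2⟩) (fun q h => by
      have k := has_mk' u q.1 q.2 h.1 h.2.1
      have e := low.part_top hl (lev_eq.2 ⟨k, h.2.2⟩)
      rw [hδ, ← lft_res hs, lc_lft _ k, hb.1] at e
      exact (mul_eq_zero.1 e).resolve_left (left_ne_zero_of_mul_eq_one (sg_sq _))) fun e => by
      have e1 : u = 1 := In_eq_empty.1 (by rw [← coe_InF, e, Finset.coe_empty])
      have : Fl.part lev u b = b := Finsupp.ext fun a => by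
        by_cases z : a.lev = u
        · exact Fl.part_of_eq b z
        · rw [Fl.part_of_ne b z, eq_comm]
          by_contra n
          have := hl a n
          rw [e1, len_one, Nat.le_zero, len_eq_zero] at this
          exact z (this.trans e1.symm)
      rw [sum_res, this]
      exact hb.2
  refine ⟨lft u ψ, fun a ha => ?_, fun a ha => ?_⟩
  · have k : Has u a := by_contra fun n => ha (lft_neg _ n)
    rw [lft_pos _ k] at ha
    exact lev_eq.2 ⟨k, (h1 _ (right_ne_zero_of_mul ha)).2.2⟩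
  · have k := lev_eq.1 ha
    rw [hδ, lc_lft _ k.1, h2 _ ⟨a.cl, a.sub, k.2⟩, res_ty hs k.1, ← mul_assoc, sg_sq, one_mul,
      Fl.part_of_eq b ha]

end Cham

end Crest.Agent.N255.Ce.Mir
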