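import Crest.Agent.N255.Ce.Defs
import Crest.Agent.N255.Fl.Filt

/-!
# Row 255 (helper16): `d d = 0` for the cells of the mirror model; exactness from a matching
-/

set_option autoImplicit false

noncomputable section

namespace Crest.Agent.N255.Ce

open Ra Finsupp Fl

/-- exactness from a perfect matching on every level -/
theorem exact_of_match {X L O : Type} [LinearOrder O] [WellFoundedLT O] {ht : L → O} {l : X → L}
    {f : (X →₀ ℤ) →ₗ[ℤ] (X →₀ ℤ)} (hf : Low ht l l f) (ff : ∀ a, f (f a) = 0)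
    {s : (X →₀ ℤ) →ₗ[ℤ] ℤ} (sf : ∀ a, s (f a) = 0) (U : X → Prop) (o : X) (so : s (single o 1) = 1)
    (ho : ∀ x, ht (l x) ≤ ht (l o) → x = o)
    (h1 : ∀ x, ¬U x → x ≠ o → ∃ y, U y ∧ l y = l x ∧ f (single y 1) x * f (single y 1) x = 1)
    (h2 : ∀ y, U y → ∃ x, ¬U x ∧ l x = l y ∧ f (single y 1) x ≠ 0)
    (h3 : ∀ y x x', U y → ¬U x → ¬U x' → l x = l y → l x' = l y → f (single y 1) x ≠ 0 →
      f (single y 1) x' ≠ 0 → x = x')
    (h4 : ∀ y y' x, U y → U y' → ¬U x → l x = l y → l x = l y' → f (single y 1) x ≠ 0 →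
      f (single y' 1) x ≠ 0 → y = y')
    (b : X →₀ ℤ) (hb : f b = 0) (hs : s b = 0) : ∃ a, f a = b := by
  classical
  refine mem_range_of_gr hf (fun b => f b = 0 ∧ s b = 0)
    (fun b a h => ⟨by rw [map_sub, h.1, ff, sub_zero], by rw [map_sub, h.2, sf, sub_zero]⟩)
    (fun w b hb hw => ?_) b ⟨hb, hs⟩
  by_cases hwo : w = l o
  · have e : b = b o • single o 1 := by
      ext y
      by_cases hy : y = o
      · simp [hy]
      · by_contra h
        exact hy (ho y (hwo ▸ hw y (by simpa [hy] using h)))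
    have e0 : b o = 0 := by
      have := (congrArg s e).symm.trans hb.2
      rwa [map_smul, so, smul_eq_mul, mul_one] at this
    exact ⟨0, fun _ h => (h rfl).elim, fun y _ => by rw [e, e0]; simp⟩
  choose! μ m1 m2 m3 using h1
  have ne : ∀ x, l x = w → x ≠ o := fun x hx e => hwo (by rw [← hx, e])
  set T := b.support.filter fun x => ¬U x ∧ l x = w
  set a : X →₀ ℤ := ∑ x ∈ T, (b x * f (single (μ x) 1) x) • single (μ x) 1 with ha
  have hT : ∀ x ∈ T, ¬U x ∧ l x = w := fun x hx => (Finset.mem_filter.1 hx).2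
  have on : On l w a := fun y hy => by
    rw [ha, Finsupp.finsetSum_apply] at hy
    obtain ⟨x, hx, h⟩ := Finset.exists_ne_zero_of_sum_ne_zero hy
    have e : μ x = y := by
      by_contra e
      exact h (by simp [e])
    rw [← e, m2 x (hT x hx).1 (ne x (hT x hx).2), (hT x hx).2]
  have low : ∀ x, ¬U x → l x = w → f a x = b x := fun x hx hl => by
    rw [ha, map_sum, Finsupp.finsetSum_apply, Finset.sum_eq_single x]
    · rw [map_smul, Finsupp.smul_apply, smul_eq_mul, mul_assoc, m3 x hx (ne x hl), mul_one]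
    · intro x' hx' e
      have k := hT x' hx'
      have k1 := m2 x' k.1 (ne x' k.2)
      have : f (single (μ x') 1) x = 0 := by
        by_contra h
        exact e (h3 (μ x') x' x (m1 x' k.1 (ne x' k.2)) k.1 hx k1.symm (hl.trans (k1.trans k.2).symm)
          (left_ne_zero_of_mul_eq_one (m3 x' k.1 (ne x' k.2))) h)
      rw [map_smul, Finsupp.smul_apply, this, smul_zero]
    · intro h
      have : b x = 0 := by
        by_contra e
        exact h (Finset.mem_filter.2 ⟨mem_support_iff.2 e, hx, hl⟩)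
      simp [this]
  refine ⟨a, on, fun y hy => ?_⟩
  by_cases hU : U y
  swap
  · exact low y hU hy
  obtain ⟨x, x1, x2, x3⟩ := h2 y hU
  have hc : f (b - f a) = 0 := by rw [map_sub, hb.1, ff, sub_zero]
  have hz : ∀ z, z ≠ y → (b - f a) z ≠ 0 → f (single z 1) x = 0 := fun z hz h => by
    by_contra e
    have le : ht (l z) ≤ ht w := by
      by_cases k : b z = 0
      · obtain ⟨v, hv, k'⟩ := hf.apply (a := a) (y := z) fun k' => h (by simp [k, k'])
        rw [on v hv] at k'
        exact k'.elim (fun k' => k' ▸ le_rfl) le_of_lt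
      · exact hw z k
    rcases hf z x e with k | k
    · by_cases hUz : U z
      · exact hz (h4 z y x hUz hU x1 k x2 e x3)
      · exact h (by rw [Finsupp.sub_apply, low z hUz (k.symm.trans (x2.trans hy)), sub_self])
    · exact absurd (x2.trans hy ▸ k) (not_lt.2 le)
  have h0 := DFunLike.congr_fun hc x
  rw [← (b - f a).sum_single, Finsupp.sum, map_sum, Finsupp.finsetSum_apply,
    Finset.sum_eq_single y] at h0
  · rw [← smul_single_one, map_smul, Finsupp.smul_apply, smul_eq_mul, Finsupp.zero_apply,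
      mul_eq_zero, Finsupp.sub_apply] at h0
    exact (sub_eq_zero.1 (h0.resolve_right x3)).symm
  · intro z hz' e
    rw [← smul_single_one, map_smul, Finsupp.smul_apply, hz z e (mem_support_iff.1 hz'), smul_zero]
  · intro h
    rw [notMem_support_iff.1 h, single_zero, map_zero, Finsupp.zero_apply]

namespace Mir

variable {S K F Nd Ed : Type} [DecidableEq S] [Group F] [MulAction F Nd] [MulAction F Ed]
  [LinearOrder K] (M : Mir S K F Nd Ed)

/-- the boundary operator -/
def bdL : (M.Cell →₀ ℤ) →ₗ[ℤ] (M.Cell →₀ ℤ) := linearCombination ℤ Cell.bd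

/-- the augmentation -/
def aug : (M.Cell →₀ ℤ) →ₗ[ℤ] ℤ := linearCombination ℤ fun a => if a.dim = 0 then 1 else 0

variable {M}

@[simp] theorem bdL_one (a : M.Cell) : M.bdL (single a 1) = a.bd := by simp [bdL]

@[simp] theorem aug_one (a : M.Cell) : M.aug (single a 1) = if a.dim = 0 then 1 else 0 := by
  simp [aug]

theorem ε_sq (s : S) (τ : Finset S) : M.ε s τ * M.ε s τ = 1 := by
  rw [ε, ← pow_add, ← two_mul, pow_mul]; simp

theorem ε_erase (s : S) {t : S} {τ : Finset S} (ht : t ∈ τ) :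
    M.ε s τ = M.ε s (τ.erase t) * if M.col t < M.col s then -1 else 1 := by
  conv_lhs => rw [← Finset.insert_erase ht]
  unfold ε
  rw [Finset.filter_insert]
  split_ifs
  · rw [Finset.card_insert_of_notMem (by simp), pow_succ]
  · rw [mul_one]

theorem ε_anti {s t : S} {τ : Finset S} (hs : s ∈ τ) (ht : t ∈ τ) (h : M.col s ≠ M.col t) :
    M.ε s τ * M.ε t (τ.erase s) = -(M.ε t τ * M.ε s (τ.erase t)) := by
  rw [ε_erase s ht, ε_erase t hs]
  rcases h.lt_or_gt with h | h
  · rw [if_neg h.not_gt, if_pos h]; ring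
  · rw [if_pos h, if_neg h.not_gt]; ring

namespace Cell

theorem lo_lo (a : M.Cell) (s t : S) : (a.lo s).lo t = (a.lo t).lo s :=
  Cell.ext rfl Finset.erase_right_comm rfl

theorem lo_hi (a : M.Cell) {s t : S} (h : t ≠ s) : (a.lo s).hi t = (a.hi t).lo s :=
  Cell.ext (by simp [lo, hi, h]) Finset.erase_right_comm rfl

theorem hi_hi (a : M.Cell) {s t : S} (hs : s ∈ a.τ) (ht : t ∈ a.τ) (h : t ≠ s) :
    (a.hi s).hi t = (a.hi t).hi s :=
  Cell.ext (by simp [hi, h, h.symm, hs, ht, mul_assoc, (gen_comm (a.cl ht hs h)).eq])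
    Finset.erase_right_comm rfl

/-- the cube part of the boundary -/
def cu (a : M.Cell) : M.Cell →₀ ℤ :=
  ∑ s ∈ a.τ, M.ε s a.τ • (single (a.lo s) 1 - single (a.hi s) 1)

/-- the tree part of the boundary -/
def tr (a : M.Cell) : M.Cell →₀ ℤ :=
  (-1 : ℤ) ^ a.τ.card • (single (a.en true) 1 - single (a.en false) 1)

theorem bd_eq (a : M.Cell) : a.bd = a.cu + a.tr := rfl

theorem tr_node {a : M.Cell} {t : Nd} (h : a.c = .inl t) : a.tr = 0 := by
  have : a.en true = a.en false := Cell.ext rfl rfl (by simp [en, h, nd])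
  rw [tr, this, sub_self, smul_zero]

theorem cu_cu (a : M.Cell) : ∑ s ∈ a.τ, M.ε s a.τ • ((a.lo s).cu - (a.hi s).cu) = 0 := by
  set X : S → S → M.Cell →₀ ℤ := fun s t => (M.ε s a.τ * M.ε t (a.τ.erase s)) •
    (single ((a.lo s).lo t) 1 - single ((a.lo s).hi t) 1 -
      (single ((a.hi s).lo t) 1 - single ((a.hi s).hi t) 1)) with hX
  have e1 : ∑ s ∈ a.τ, M.ε s a.τ • ((a.lo s).cu - (a.hi s).cu) =
      ∑ s ∈ a.τ, ∑ t ∈ a.τ.erase s, X s t := Finset.sum_congr rfl fun s _ => by
    change M.ε s a.τ • (∑ t ∈ a.τ.erase s, _ - ∑ t ∈ a.τ.erase s, _) = _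
    rw [← Finset.sum_sub_distrib, Finset.smul_sum]
    exact Finset.sum_congr rfl fun t _ => by
      change M.ε s a.τ • (M.ε t (a.τ.erase s) • _ - M.ε t (a.τ.erase s) • _) = _
      rw [← smul_sub]; exact smul_smul _ _ _
  have e2 : ∑ s ∈ a.τ, ∑ t ∈ a.τ.erase s, X s t = -∑ s ∈ a.τ, ∑ t ∈ a.τ.erase s, X s t := by
    conv_lhs => rw [Finset.sum_comm' (t' := a.τ) (s' := fun t => a.τ.erase t)
      (by simp only [Finset.mem_erase]; tauto)]
    rw [← Finset.sum_neg_distrib]
    refine Finset.sum_congr rfl fun s hs => ?_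
    rw [← Finset.sum_neg_distrib]
    refine Finset.sum_congr rfl fun t ht => ?_
    obtain ⟨h, ht⟩ := Finset.mem_erase.1 ht
    simp only [hX]
    rw [ε_anti ht hs (M.col_ne _ _ (a.cl ht hs h)), neg_smul, a.lo_lo t s, a.lo_hi h.symm,
      a.lo_hi h, a.hi_hi hs ht h]
    congr 2
    abel
  rw [e1]
  ext y
  have := DFunLike.congr_fun e2 y
  rw [Finsupp.neg_apply] at this
  rw [Finsupp.zero_apply]
  omega

theorem bd_bd (a : M.Cell) : M.bdL a.bd = 0 := by
  have e : ∑ s ∈ a.τ, M.ε s a.τ • ((a.lo s).tr - (a.hi s).tr) +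
      (-1 : ℤ) ^ a.τ.card • ((a.en true).cu - (a.en false).cu) = 0 := by
    change _ + _ • (∑ s ∈ a.τ, _ - ∑ s ∈ a.τ, _) = _
    rw [← Finset.sum_sub_distrib, Finset.smul_sum, ← Finset.sum_add_distrib]
    refine Finset.sum_eq_zero fun s hs => ?_
    rw [← Finset.card_erase_add_one hs, pow_succ]
    change M.ε s a.τ • ((-1 : ℤ) ^ (a.τ.erase s).card • (single ((a.lo s).en true) 1 -
      single ((a.lo s).en false) 1) - (-1 : ℤ) ^ (a.τ.erase s).card • (single ((a.hi s).en true) 1 -
      single ((a.hi s).en false) 1)) + _ • (M.ε s a.τ • (single ((a.lo s).en true) 1 -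
      single ((a.hi s).en true) 1) - M.ε s a.τ • (single ((a.lo s).en false) 1 -
      single ((a.hi s).en false) 1)) = (0 : M.Cell →₀ ℤ)
    module
  have h := a.cu_cu
  rw [bd, map_add, map_sum]
  simp only [map_smul, map_sub, bdL_one, bd_eq, tr_node (a := a.en _) rfl, add_zero, add_sub_add_comm,
    smul_add, Finset.sum_add_distrib]
  rw [h, zero_add, e]

theorem dim_lo (a : M.Cell) {s : S} (hs : s ∈ a.τ) : (a.lo s).dim + 1 = a.dim := by
  have := Finset.card_erase_add_one hs
  simp only [dim, lo]; omega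

theorem dim_hi (a : M.Cell) {s : S} (hs : s ∈ a.τ) : (a.hi s).dim + 1 = a.dim := a.dim_lo hs

theorem dim_en (a : M.Cell) {e : Ed} (h : a.c = .inr e) (b : Bool) : (a.en b).dim + 1 = a.dim := by
  simp only [dim, en, h, tdim]

theorem aug_bd (a : M.Cell) : M.aug a.bd = 0 := by
  rw [bd, map_add, map_sum]
  simp only [map_smul, map_sub, aug_one]
  rw [Finset.sum_eq_zero fun s _ => by rw [show (a.hi s).dim = (a.lo s).dim from rfl]; simp,
    show (a.en true).dim = (a.en false).dim from rfl]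
  simp

theorem cu_ne {a y : M.Cell} (h : a.cu y ≠ 0) : ∃ s ∈ a.τ, y = a.lo s ∨ y = a.hi s := by
  classical
  rw [cu, Finsupp.finsetSum_apply] at h
  obtain ⟨s, hs, h⟩ := Finset.exists_ne_zero_of_sum_ne_zero h
  refine ⟨s, hs, ?_⟩
  by_contra k
  push Not at k
  exact h (by simp [k.1, k.2])

theorem tr_ne {a y : M.Cell} (h : a.tr y ≠ 0) : ∃ e b, a.c = .inr e ∧ y = a.en b := by
  rcases hc : a.c with t | e
  · exact (h (by rw [tr_node hc]; rfl)).elim
  · by_contra k
    push Not at k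
    exact h (by simp [tr, k e true rfl, k e false rfl])

theorem bd_ne {a y : M.Cell} (h : a.bd y ≠ 0) :
    (∃ s ∈ a.τ, y = a.lo s ∨ y = a.hi s) ∨ ∃ e b, a.c = .inr e ∧ y = a.en b := by
  by_cases k : a.cu y = 0
  · exact Or.inr (tr_ne fun k' => h (by rw [bd_eq, Finsupp.add_apply, k, k', add_zero]))
  · exact Or.inl (cu_ne k)

theorem dim_bd {a y : M.Cell} (h : a.bd y ≠ 0) : y.dim + 1 = a.dim := by
  rcases bd_ne h with ⟨s, hs, rfl | rfl⟩ | ⟨e, b, he, rfl⟩
  exacts [a.dim_lo hs, a.dim_hi hs, a.dim_en he b]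

end Cell

theorem bdL_bdL (b : M.Cell →₀ ℤ) : M.bdL (M.bdL b) = 0 := by
  induction b using Finsupp.induction_linear with
  | zero => simp
  | add f g hf hg => simp [hf, hg]
  | single a k => rw [← smul_single_one, map_smul, map_smul, bdL_one, a.bd_bd, smul_zero]

theorem aug_bdL (b : M.Cell →₀ ℤ) : M.aug (M.bdL b) = 0 := by
  induction b using Finsupp.induction_linear with
  | zero => simp
  | add f g hf hg => simp [hf, hg]
  | single a k => rw [← smul_single_one, map_smul, map_smul, bdL_one, a.aug_bd, smul_zero]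

end Mir

end Crest.Agent.N255.Ce

end
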